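import Crest.Agent.N265.Formal.Rad

/-!
# Row 265, formal layer: the point recursion along one nested space; the universal ring (helper3)
-/

set_option autoImplicit false

open Polynomial

namespace Crest.Agent.N265.Formal

variable {R R' K M : Type*} [CommRing R] [CommRing R'] [AddCommGroup K] [AddCommGroup M]

namespace Lev

noncomputable def U1 (J : ℕ) (x : Lev R K M) : R[X] := UU J x.a1 x.A1 x.B1
noncomputable def V1 (J : ℕ) (x : Lev R K M) : R[X] := UU J x.a1 x.B1 x.A1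
noncomputable def U2 (J : ℕ) (x : Lev R K M) : R[X] := UU J x.a2 x.A2 x.B2
noncomputable def V2 (J : ℕ) (x : Lev R K M) : R[X] := UU J x.a2 x.B2 x.A2

theorem Ok.swap {J : ℕ} {x : Lev R K M} (h : x.Ok J) : x.swap.Ok J :=
  ⟨h.c2, h.c1, h.u2, h.u1, by have := h.ud.neg; rwa [neg_sub] at this⟩

theorem Ok.mono {J J' : ℕ} {x : Lev R K M} (h : x.Ok J) (hJ : J ≤ J') : x.Ok J' :=
  ⟨h.c1.mono hJ, h.c2.mono hJ, h.u1, h.u2, h.ud⟩

end Lev

/-- the recursion along one nested space -/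
theorem Nest.rec1 {x : Lev R K M} {y : Lev R' K M} {v : K →+ M} {N : Type*} [CommRing N]
    {π : R →+* N} {π' : R' →+* N} {ell : N} {LN : N →+ K} {ΓN : N →+ M}
    (h : Nest x y v π π' ell LN ΓN) {J : ℕ} (hx : x.Ok J) (hy : y.Ok J) {m : R} {m' : R'}
    (hm : π m = π' m') (k : ℕ) :
    y.L (m' * res ((X - C y.a1) ^ J) (X ^ k * (y.U1 J * y.U2 J))) +
      x.L (m * (x.l0 * x.a1 * x.a2 * res ((X - C x.a1) ^ J) (X ^ k * (x.P * x.V1 J * x.V2 J))))
      = 0 ∧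
    y.Γ (m' * res ((X - C y.a1) ^ J) (X ^ k * (y.U1 J * y.U2 J))) +
      x.Γ (m * (x.l0 * x.a1 * x.a2 * res ((X - C x.a1) ^ J) (X ^ k * (x.P * x.V1 J * x.V2 J))))
      = v (x.L (m * (x.l0 * x.a1 * x.a2 *
        res ((X - C x.a1) ^ J) (X ^ k * (X * x.P * x.V1 J * x.V2 J))))) := by
  have hc : IsCoprime x.A1 x.A2 :=
    (((coprime_lin hx.ud).pow).of_isCoprime_of_dvd_left hx.c1.dA).of_isCoprime_of_dvd_right
      hx.c2.dA
  obtain ⟨u, w, huw⟩ := hc
  have e1 : m' * res ((X - C y.a1) ^ J) (X ^ k * (y.U1 J * y.U2 J)) =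
      res y.B1 (C m' * X ^ k * y.U2 J * y.A1) := by
    rw [← hy.c1.resU, ← res_C_mul, Lev.U1]; congr 1; ring
  have e2 : ∀ E : R[X], x.a2 * x.l0 * res x.A1
      (E * (C (m * x.a1) * X ^ k * x.U2 J * w ^ 2) * x.P * x.B1 * x.B2 ^ 2) =
      m * (x.l0 * x.a1 * x.a2 * res ((X - C x.a1) ^ J) (X ^ k * (E * x.P * x.V1 J * x.V2 J))) := by
    intro E
    have : res ((X - C x.a1) ^ J) (X ^ k * (E * x.P * x.V1 J * x.V2 J)) =
        res x.A1 (X ^ k * E * x.P * x.V2 J * x.B1) := by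
      rw [← hx.c1.resV, Lev.V1]; congr 1; ring
    rw [this, res_congr hx.c1.mA (q := C (m * x.a1) * (X ^ k * E * x.P * x.V2 J * x.B1)),
      res_C_mul]
    · ring
    · refine ⟨-(C (m * x.a1) * X ^ k * E * x.P * x.V2 J * x.B1 * u * (1 + w * x.A2)), ?_⟩
      have a := hx.c2.U_mul
      have b := hx.c2.V_mul
      rw [Lev.U2, Lev.V2]
      linear_combination (E * C (m * x.a1) * X ^ k * w ^ 2 * x.P * x.B1) * (x.B2 * a - x.A2 * b)
        + (C (m * x.a1) * X ^ k * E * x.P * UU J x.a2 x.B2 x.A2 * x.B1 * (1 + w * x.A2)) * huw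
  have e3 : (C m' * X ^ k * y.U2 J).eval₂ π' ell * ell * π x.a1 =
      (C (m * x.a1) * X ^ k * x.U2 J * w ^ 2).eval₂ π ell * ell * x.A2.eval₂ π ell ^ 2 := by
    have a := congrArg (eval₂ π ell) huw
    have b := congrArg (eval ell) (UU_compat π π' hx.c2 hy.c2 h.a2 h.p2).1
    rw [eval_map, eval_map] at b
    simp only [eval₂_add, eval₂_mul, eval₂_one, h.root, eval₂_C, eval₂_pow, eval₂_X, map_mul,
      Lev.U2] at a ⊢
    rw [← b, ← hm]
    linear_combination -(π m * π x.a1 * ell ^ k * eval₂ π ell (UU J x.a2 x.A2 x.B2) * ell *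
      (1 + eval₂ π ell w * eval₂ π ell x.A2)) * a
  have e4 := e2 1
  rw [one_mul, one_mul] at e4
  constructor
  · rw [e1, ← h.L1, e3, h.L2, e4, neg_add_cancel]
  · rw [e1, ← h.Γ1, e3, h.Γ2, e4, e2]; abel

theorem map_inverse (f : R →+* R') {a : R} (ha : IsUnit a) :
    f (Ring.inverse a) = Ring.inverse (f a) := by
  obtain ⟨u, rfl⟩ := ha
  rw [Ring.inverse_unit]
  exact (Ring.inverse_unit (Units.map (f : R →* R') u)).symm

/-- universal base ring -/
abbrev Bz : Type := MvPolynomial (Fin 8) ℤ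
/-- universal ring -/
abbrev Uz (J : ℕ) : Type := MvPolynomial (Fin 4 × Fin (J + 2)) Bz

/-- universal polynomials -/
noncomputable def up (J : ℕ) (s : Fin 4) : (Uz J)[X] :=
  ∑ k : Fin (J + 2), monomial k (MvPolynomial.X (s, k))

theorem coeff_up (J : ℕ) (s : Fin 4) (k : Fin (J + 2)) :
    (up J s).coeff k = MvPolynomial.X (s, k) := by
  rw [up, finsetSum_coeff, Finset.sum_eq_single k]
  · simp
  · intro b _ hb
    rw [coeff_monomial, if_neg (fun e => hb (Fin.ext e))]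
  · simp

/-- base generators inside the universal ring -/
noncomputable def bz (J : ℕ) (i : Fin 8) : Uz J := MvPolynomial.C (MvPolynomial.X i)

namespace Lev

noncomputable def bs (x : Lev R K M) : Fin 8 → R :=
  ![x.a1, x.a2, x.m1, x.m2, x.l0, Ring.inverse x.a1, Ring.inverse x.a2,
    Ring.inverse (x.a1 - x.a2)]
noncomputable def ps (J : ℕ) (x : Lev R K M) : Fin 4 → R[X] := ![x.U1 J, x.V1 J, x.U2 J, x.V2 J]
noncomputable def evB (x : Lev R K M) : Bz →+* R := MvPolynomial.eval₂Hom (Int.castRingHom R) x.bs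
noncomputable def ev (J : ℕ) (x : Lev R K M) : Uz J →+* R :=
  MvPolynomial.eval₂Hom x.evB fun s => (x.ps J s.1).coeff s.2

theorem ev_C (J : ℕ) (x : Lev R K M) (b : Bz) : x.ev J (MvPolynomial.C b) = x.evB b := by
  simp [ev]
theorem ev_bz (J : ℕ) (x : Lev R K M) (i : Fin 8) : x.ev J (bz J i) = x.bs i := by
  simp [bz, ev, evB]

theorem map_up {J : ℕ} {x : Lev R K M} (hx : x.Ok (J + 2)) (s : Fin 4) :
    (up (J + 2) s).map (x.ev (J + 2)) = x.ps (J + 2) s := by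
  have hV : ∀ {a : R} {U V : R[X]}, Fac (J + 2) a U V → V.natDegree ≤ J + 2 + 1 := by
    intro a U V h
    obtain ⟨Q, hQ, rfl⟩ := h.decompV
    exact natDegree_add_le_of_degree_le ((natDegree_pow_le' _ _).trans (by omega)) (by omega)
  have hd : (x.ps (J + 2) s).natDegree < J + 2 + 2 := by
    refine Nat.lt_succ_of_le ?_
    fin_cases s
    exacts [hx.c1.fac.lead.natDegree_le, hV hx.c1.fac, hx.c2.fac.lead.natDegree_le, hV hx.c2.fac]
  rw [up, Polynomial.map_sum]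
  conv_rhs => rw [as_sum_range' _ _ hd, ← Fin.sum_univ_eq_sum_range
    (fun i => monomial i ((x.ps (J + 2) s).coeff i))]
  simp [ev]

theorem Same.evB {x y : Lev R K M} (h : x.Same y) : y.evB = x.evB := by
  rw [Lev.evB, Lev.evB, bs, bs, h.a1, h.a2, h.m1, h.m2, h.l0]

theorem compat {x : Lev R K M} {y : Lev R' K M} {N : Type*} [CommRing N] {π : R →+* N}
    {π' : R' →+* N} {J : ℕ} (hx : x.Ok J) (hy : y.Ok J) (a1 : π x.a1 = π' y.a1)
    (a2 : π x.a2 = π' y.a2) (m1 : π x.m1 = π' y.m1) (m2 : π x.m2 = π' y.m2)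
    (l0 : π x.l0 = π' y.l0) (p1 : x.A1.map π * y.B1.map π' = y.A1.map π' * x.B1.map π)
    (p2 : x.A2.map π * y.B2.map π' = y.A2.map π' * x.B2.map π) (u : Uz J) :
    π (x.ev J u) = π' (y.ev J u) := by
  have hb : ∀ i, π (x.bs i) = π' (y.bs i) := by
    intro i
    fin_cases i
    exacts [a1, a2, m1, m2, l0,
      (map_inverse π hx.u1).trans (a1 ▸ (map_inverse π' hy.u1).symm),
      (map_inverse π hx.u2).trans (a2 ▸ (map_inverse π' hy.u2).symm),
      (map_inverse π hx.ud).trans (by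
        rw [map_sub, a1, a2, ← map_sub]; exact (map_inverse π' hy.ud).symm)]
  have hp : ∀ s, (x.ps J s).map π = (y.ps J s).map π' := by
    intro s
    fin_cases s
    exacts [(UU_compat π π' hx.c1 hy.c1 a1 p1).1, (UU_compat π π' hx.c1 hy.c1 a1 p1).2,
      (UU_compat π π' hx.c2 hy.c2 a2 p2).1, (UU_compat π π' hx.c2 hy.c2 a2 p2).2]
  have : π.comp (x.ev J) = π'.comp (y.ev J) := by
    refine MvPolynomial.ringHom_ext' (MvPolynomial.ringHom_ext' (RingHom.ext_int _ _) fun i => ?_)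
      fun s => ?_
    · simpa [ev, evB] using hb i
    · simpa [ev] using congrArg (coeff · s.2) (hp s.1)
  exact DFunLike.congr_fun this u

end Lev

/-! ### universal residues -/

/-- `res (X^k U₁U₂)` -/
noncomputable def rU (J : ℕ) (i : Fin 8) (k : ℕ) : Uz J :=
  res ((X - C (bz J i)) ^ J) (X ^ k * (up J 0 * up J 2))
/-- `La · res (X^k E P V₁V₂)` -/
noncomputable def rV (J : ℕ) (i : Fin 8) (e k : ℕ) : Uz J := bz J 4 * bz J 0 * bz J 1 *
  res ((X - C (bz J i)) ^ J)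
    (X ^ k * (X ^ e * ((X - C (bz J 2)) * (X - C (bz J 3))) * up J 1 * up J 3))

theorem Lev.ev_rU {J : ℕ} {x : Lev R K M} (hx : x.Ok (J + 2)) (i : Fin 8) (k : ℕ) :
    x.ev _ (rU (J + 2) i k) =
      res ((X - C (x.bs i)) ^ (J + 2)) (X ^ k * (x.U1 (J + 2) * x.U2 (J + 2))) := by
  rw [rU, ← res_map _ ((monic_X_sub_C _).pow _)]
  simp only [Polynomial.map_mul, Polynomial.map_pow, Polynomial.map_sub, map_X, map_C, Lev.ev_bz,
    Lev.map_up hx]
  rfl

theorem Lev.ev_rV {J : ℕ} {x : Lev R K M} (hx : x.Ok (J + 2)) (i : Fin 8) (e k : ℕ) :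
    x.ev _ (rV (J + 2) i e k) = x.l0 * x.a1 * x.a2 * res ((X - C (x.bs i)) ^ (J + 2))
      (X ^ k * (X ^ e * x.P * x.V1 (J + 2) * x.V2 (J + 2))) := by
  rw [rV, map_mul, ← res_map _ ((monic_X_sub_C _).pow _)]
  simp only [Polynomial.map_mul, Polynomial.map_pow, Polynomial.map_sub, map_X, map_C, Lev.ev_bz,
    Lev.map_up hx, map_mul]
  rfl

universe u

theorem HasNest.rec1 {R R' : Type u} [CommRing R] [CommRing R'] {x : Lev R K M} {y : Lev R' K M}
    {v : K →+ M} (h : HasNest x y v) {J : ℕ} (hx : x.Ok (J + 2)) (hy : y.Ok (J + 2)) (k : ℕ)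
    (u : Uz (J + 2)) :
    y.L (y.ev _ (u * rU _ 0 k)) + x.L (x.ev _ (u * rV _ 0 0 k)) = 0 ∧
    y.Γ (y.ev _ (u * rU _ 0 k)) + x.Γ (x.ev _ (u * rV _ 0 0 k)) =
      v (x.L (x.ev _ (u * rV _ 0 1 k))) := by
  obtain ⟨N, _, π, π', ell, LN, ΓN, h⟩ := h
  have := h.rec1 hx hy (Lev.compat hx hy h.a1 h.a2 h.m1 h.m2 h.l0 h.p1 h.p2 u) k
  simp only [map_mul, Lev.ev_rU hy, Lev.ev_rV hx, pow_zero, pow_one, one_mul]
  exact this

theorem HasNest.rec2 {R R' : Type u} [CommRing R] [CommRing R'] {x : Lev R K M} {y : Lev R' K M}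
    {v : K →+ M} (h : HasNest x.swap y.swap v) {J : ℕ} (hx : x.Ok (J + 2)) (hy : y.Ok (J + 2))
    (k : ℕ) (u : Uz (J + 2)) :
    y.L (y.ev _ (u * rU _ 1 k)) + x.L (x.ev _ (u * rV _ 1 0 k)) = 0 ∧
    y.Γ (y.ev _ (u * rU _ 1 k)) + x.Γ (x.ev _ (u * rV _ 1 0 k)) =
      v (x.L (x.ev _ (u * rV _ 1 1 k))) := by
  obtain ⟨N, _, π, π', ell, LN, ΓN, h⟩ := h
  have := h.rec1 hx.swap hy.swap (Lev.compat hx hy h.a2 h.a1 h.m1 h.m2 h.l0 h.p2 h.p1 u) k
  simp only [map_mul, Lev.ev_rU hy, Lev.ev_rV hx, pow_zero, pow_one, one_mul]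
  rw [mul_comm (y.U1 _), mul_right_comm x.l0, mul_right_comm x.P, mul_right_comm (X * x.P)]
  exact this

end Crest.Agent.N265.Formal
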