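import Mathlib

/-!
# Row 265, formal layer, part 1: the qq-equation in polynomial form (helper3)

`Y = U / (X - a)^J`, `Y⁻¹ = V / (X - a)^J`.  `QQ` says that `Y₁Y₂ + La·Q/(Y₁Y₂)` has no poles.
We solve the equation modulo `La`, `La²`, `La³`.
-/

set_option autoImplicit false

open Polynomial

namespace Crest.Agent.N265.Formal

variable {A : Type*} [CommRing A]

/-- `U` is `X^(J+1)` plus lower terms -/
structure Lead (J : ℕ) (U : A[X]) : Prop where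
  top : U.coeff (J + 1) = 1
  hi : ∀ k, J + 1 < k → U.coeff k = 0

theorem Lead.monic {J : ℕ} {U : A[X]} (h : Lead J U) : U.Monic :=
  monic_of_natDegree_le_of_coeff_eq_one (J + 1) (natDegree_le_iff_coeff_eq_zero.2 h.hi) h.top

theorem Lead.natDegree_le {J : ℕ} {U : A[X]} (h : Lead J U) : U.natDegree ≤ J + 1 :=
  natDegree_le_iff_coeff_eq_zero.2 h.hi

theorem Lead.map {A' : Type*} [CommRing A'] (f : A →+* A') {J : ℕ} {U : A[X]} (h : Lead J U) :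
    Lead J (U.map f) :=
  ⟨by rw [coeff_map, h.top, map_one], fun k hk => by rw [coeff_map, h.hi k hk, map_zero]⟩

theorem Lead.of_monic {J : ℕ} {U : A[X]} (hm : U.Monic) (hd : U.natDegree = J + 1) : Lead J U :=
  ⟨by rw [← hd]; exact hm.coeff_natDegree, fun k hk => coeff_eq_zero_of_natDegree_lt (hd ▸ hk)⟩

theorem lead_pow_mul (J0 k : ℕ) (a : A) (R : A[X]) (hR : R.natDegree ≤ k) (j : ℕ) (hj : J0 + k = j) :
    Lead j ((X - C a) ^ J0 * ((X - C a) ^ (k + 1) + R)) := by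
  rcases subsingleton_or_nontrivial A with _ | _
  · exact ⟨Subsingleton.elim _ _, fun _ _ => Subsingleton.elim _ _⟩
  have h1 : ((X - C a) ^ (k + 1) : A[X]).natDegree = k + 1 := by
    rw [(monic_X_sub_C a).natDegree_pow, natDegree_X_sub_C, mul_one]
  have hm : ((X - C a) ^ (k + 1) + R).Monic :=
    ((monic_X_sub_C a).pow _).add_of_left (degree_lt_degree (by omega))
  have hd : ((X - C a) ^ (k + 1) + R).natDegree = k + 1 := by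
    rw [natDegree_add_eq_left_of_natDegree_lt (by omega), h1]
  refine Lead.of_monic (((monic_X_sub_C a).pow _).mul hm) ?_
  rw [((monic_X_sub_C a).pow _).natDegree_mul hm, (monic_X_sub_C a).natDegree_pow,
    natDegree_X_sub_C, hd]
  omega

/-- one factor -/
structure Fac (J : ℕ) (a : A) (U V : A[X]) : Prop where
  lead : Lead J U
  mul : U * V = (X - C a) ^ (2 * J)
  ev0 : U.eval 0 = (-a) ^ (J + 1)

theorem Fac.map {A' : Type*} [CommRing A'] (f : A →+* A') {J : ℕ} {a : A} {U V : A[X]}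
    (h : Fac J a U V) : Fac J (f a) (U.map f) (V.map f) where
  lead := h.lead.map f
  mul := by rw [← Polynomial.map_mul, h.mul]; simp
  ev0 := by
    have : (0 : A') = f 0 := (map_zero f).symm
    rw [this, eval_map, eval₂_at_apply, h.ev0]; simp

/-- uniqueness of the factor with given polar part -/
theorem Fac.uniq {J : ℕ} {a : A} {U V W : A[X]} (h : Fac J a U V) (ha : IsUnit a) (hW : Lead J W)
    (h0 : W.eval 0 = (-a) ^ (J + 1)) (hd : (X - C a) ^ J ∣ U - W) : U = W := by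
  nontriviality A
  obtain ⟨q, hq⟩ := hd
  have hm : ((X - C a) ^ J : A[X]).Monic := (monic_X_sub_C a).pow _
  have hdeg : (U - W).natDegree ≤ J := by
    rw [natDegree_le_iff_coeff_eq_zero]
    intro k hk
    rcases Nat.lt_or_ge (J + 1) k with h1 | h1
    · rw [coeff_sub, h.lead.hi k h1, hW.hi k h1, sub_zero]
    · obtain rfl : k = J + 1 := by omega
      rw [coeff_sub, h.lead.top, hW.top, sub_self]
  by_cases hq0 : q = 0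
  · rw [hq0, mul_zero, sub_eq_zero] at hq; exact hq
  have hq1 : q.natDegree = 0 := by
    rw [hq, hm.natDegree_mul' hq0, (monic_X_sub_C a).natDegree_pow, natDegree_X_sub_C] at hdeg
    omega
  rw [eq_C_of_natDegree_eq_zero hq1] at hq hq0
  have := congrArg (eval 0) hq
  rw [eval_sub, h.ev0, h0, sub_self] at this
  simp only [eval_mul, eval_pow, eval_sub, eval_X, eval_C, zero_sub] at this
  have hu : IsUnit ((-a) ^ J) := (ha.neg).pow _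
  have := (hu.mul_right_eq_zero).1 this.symm
  exact absurd (by rw [this, map_zero]) hq0

theorem Fac.uniqV {J : ℕ} {a : A} {U V V' : A[X]} (h : Fac J a U V)
    (h' : U * V' = (X - C a) ^ (2 * J)) : V = V' :=
  h.lead.monic.isRegular.left (by simp only [h.mul, h'])

theorem coprime_lin {a b : A} (h : IsUnit (a - b)) : IsCoprime (X - C a : A[X]) (X - C b) := by
  obtain ⟨u, hu⟩ := h
  refine ⟨-C (↑u⁻¹ : A), C (↑u⁻¹ : A), ?_⟩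
  have : C (↑u⁻¹ : A) * C (a - b) = 1 := by rw [← map_mul, ← hu, Units.inv_mul, map_one]
  rw [map_sub] at this
  linear_combination this

theorem Fac.coprime {J : ℕ} {a b : A} {U V : A[X]} (h : Fac J b U V) (hab : IsUnit (a - b))
    (k : ℕ) : IsCoprime ((X - C a) ^ k) U := by
  have : IsCoprime ((X - C a) ^ k) (U * V) := by
    rw [h.mul]; exact (coprime_lin hab).pow
  exact this.of_mul_right_left

/-- the qq-equation -/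
structure QQ (J : ℕ) (a1 a2 La : A) (Q U1 V1 U2 V2 : A[X]) : Prop where
  f1 : Fac J a1 U1 V1
  f2 : Fac J a2 U2 V2
  u1 : IsUnit a1
  u2 : IsUnit a2
  ud : IsUnit (a1 - a2)
  d1 : (X - C a1) ^ J ∣ U1 * U2 + C La * Q * V1 * V2
  d2 : (X - C a2) ^ J ∣ U1 * U2 + C La * Q * V1 * V2

namespace QQ

variable {J : ℕ} {a1 a2 La : A} {Q U1 V1 U2 V2 : A[X]}

theorem swap (h : QQ J a1 a2 La Q U1 V1 U2 V2) : QQ J a2 a1 La Q U2 V2 U1 V1 where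
  f1 := h.f2
  f2 := h.f1
  u1 := h.u2
  u2 := h.u1
  ud := by rw [← neg_sub]; exact h.ud.neg
  d1 := by convert h.d2 using 1; ring
  d2 := by convert h.d1 using 1; ring

theorem map {A' : Type*} [CommRing A'] (f : A →+* A') (h : QQ J a1 a2 La Q U1 V1 U2 V2) :
    QQ J (f a1) (f a2) (f La) (Q.map f) (U1.map f) (V1.map f) (U2.map f) (V2.map f) where
  f1 := h.f1.map f
  f2 := h.f2.map f
  u1 := h.u1.map f
  u2 := h.u2.map f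
  ud := by rw [← map_sub]; exact h.ud.map f
  d1 := by simpa using map_dvd (mapRingHom f) h.d1
  d2 := by simpa using map_dvd (mapRingHom f) h.d2

/-- a candidate `W` for `U1` which satisfies the pole condition is `U1` -/
theorem eq_of_dvd (h : QQ J a1 a2 La Q U1 V1 U2 V2) {W : A[X]} (hW : Lead J W)
    (h0 : W.eval 0 = (-a1) ^ (J + 1))
    (hd : (X - C a1) ^ J ∣ W * U2 + C La * Q * V1 * V2) : U1 = W := by
  refine h.f1.uniq h.u1 hW h0 ((h.f2.coprime h.ud J).dvd_of_dvd_mul_right ?_)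
  convert dvd_sub h.d1 hd using 1; ring

end QQ

/-- lifting an equality modulo `s` -/
theorem exists_of_map_eq (s : A) {p q : A[X]}
    (h : p.map (Ideal.Quotient.mk (Ideal.span {s})) = q.map (Ideal.Quotient.mk (Ideal.span {s}))) :
    ∃ R, p = q + C s * R := by
  have : C s ∣ p - q := by
    rw [C_dvd_iff_dvd_coeff]
    intro i
    rw [← Ideal.mem_span_singleton, ← Ideal.Quotient.eq_zero_iff_mem, ← coeff_map,
      Polynomial.map_sub, h, sub_self, coeff_zero]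
  obtain ⟨R, hR⟩ := this
  exact ⟨R, by rw [← hR]; ring⟩

theorem mk_self (s : A) : Ideal.Quotient.mk (Ideal.span {s}) s = 0 :=
  Ideal.Quotient.eq_zero_iff_mem.2 (Ideal.mem_span_singleton_self s)

namespace QQ

variable {J : ℕ} {a1 a2 La : A} {Q U1 V1 U2 V2 : A[X]}

theorem ord0_exact (h : QQ (J + 1) a1 a2 0 Q U1 V1 U2 V2) :
    U1 = (X - C a1) ^ (J + 2) ∧ V1 = (X - C a1) ^ J := by
  have hU : U1 = (X - C a1) ^ (J + 2) := by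
    refine h.eq_of_dvd ?_ (by simp) ?_
    · simpa using lead_pow_mul 0 (J + 1) a1 0 (by simp) (J + 1) (by simp)
    · simp only [map_zero, zero_mul, add_zero]
      exact Dvd.dvd.mul_right (pow_dvd_pow _ (by omega)) _
  exact ⟨hU, h.f1.uniqV (by rw [hU, ← pow_add]; congr 1; omega)⟩

/-- order zero -/
theorem ord0 (h : QQ (J + 1) a1 a2 La Q U1 V1 U2 V2) (l : A) (hl : l ∣ La) :
    (∃ R, U1 = (X - C a1) ^ (J + 2) + C l * R) ∧ (∃ R, V1 = (X - C a1) ^ J + C l * R) := by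
  have h' := h.map (Ideal.Quotient.mk (Ideal.span {l}))
  have : Ideal.Quotient.mk (Ideal.span {l}) La = 0 :=
    Ideal.Quotient.eq_zero_iff_mem.2 (Ideal.mem_span_singleton.2 hl)
  rw [this] at h'
  obtain ⟨h1, h2⟩ := h'.ord0_exact
  exact ⟨exists_of_map_eq l (by simpa using h1), exists_of_map_eq l (by simpa using h2)⟩

theorem ord1_exact {l b1 : A} (h : QQ (J + 3) a1 a2 (l * a1 * a2) Q U1 V1 U2 V2) (hl : l ^ 2 = 0)
    (hb : (a1 - a2) ^ 2 * b1 = -a2 * Q.eval a1) :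
    U1 = (X - C a1) ^ (J + 2) * ((X - C a1) ^ 2 + C l * C b1 * X) ∧
      V1 = (X - C a1) ^ J * ((X - C a1) ^ 2 - C l * C b1 * X) := by
  have hl' : (C l : A[X]) ^ 2 = 0 := by rw [← map_pow, hl, map_zero]
  have hU : U1 = (X - C a1) ^ (J + 2) * ((X - C a1) ^ 2 + C l * C b1 * X) := by
    obtain ⟨-, R1, hV1⟩ := h.ord0 l ⟨a1 * a2, by ring⟩
    obtain ⟨⟨R2, hU2⟩, R3, hV2⟩ := h.swap.ord0 l ⟨a1 * a2, by ring⟩
    refine h.eq_of_dvd (lead_pow_mul (J + 2) 1 a1 _ ?_ _ (by omega)) (by simp; ring) ?_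
    · rw [← map_mul]; exact (natDegree_C_mul_le _ _).trans natDegree_X_le
    · obtain ⟨K, hK⟩ : (X - C a1) ∣ C b1 * X * (X - C a2) ^ 2 + C a1 * C a2 * Q := by
        rw [dvd_iff_isRoot, IsRoot.def]
        simp only [eval_add, eval_mul, eval_C, eval_X, eval_pow, eval_sub]
        linear_combination a1 * hb
      refine ⟨(X - C a1) * U2 + C l * (X - C a2) ^ (J + 2) * K, ?_⟩
      rw [hV1, hV2]
      nth_rewrite 1 [hU2]
      nth_rewrite 1 [hU2]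
      simp only [map_mul]
      linear_combination (X - C a1) ^ (J + 2) * C l * (X - C a2) ^ (J + 2) * hK +
        ((X - C a1) ^ (J + 2) * C b1 * X * R2 + C a1 * C a2 * Q *
          (R1 * (X - C a2) ^ (J + 2) + (X - C a1) ^ (J + 2) * R3 + C l * R1 * R3)) * hl'
  refine ⟨hU, h.f1.uniqV ?_⟩
  rw [hU]
  linear_combination (-(X - C a1) ^ (2 * J + 2) * (C b1 * X) ^ 2) * hl'

/-- order one -/
theorem ord1 {l b1 : A} (h : QQ (J + 3) a1 a2 (l * a1 * a2) Q U1 V1 U2 V2)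
    (hb : (a1 - a2) ^ 2 * b1 = -a2 * Q.eval a1) :
    (∃ R, U1 = (X - C a1) ^ (J + 2) * ((X - C a1) ^ 2 + C l * C b1 * X) + C l ^ 2 * R) ∧
      ∃ R, V1 = (X - C a1) ^ J * ((X - C a1) ^ 2 - C l * C b1 * X) + C l ^ 2 * R := by
  set f := Ideal.Quotient.mk (Ideal.span {l ^ 2})
  have h' := h.map f
  rw [map_mul, map_mul] at h'
  obtain ⟨h1, h2⟩ := h'.ord1_exact (b1 := f b1) (by rw [← map_pow]; exact mk_self _)
    (by rw [eval_map, eval₂_at_apply]; simpa using congrArg f hb)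
  rw [← map_pow]
  exact ⟨exists_of_map_eq _ (by simpa using h1), exists_of_map_eq _ (by simpa using h2)⟩

end QQ

set_option maxHeartbeats 2000000 in
theorem ord2_aux {R : Type*} [CommRing R] (w a d l q0 q1 q2 q3 b1 b2 r0 r1 r2 : R)
    (hl : l ^ 3 = 0) (h1 : d ^ 2 * b1 = -(a - d) * q0)
    (hr0 : d ^ 2 * r0 = a * (a - d) * b1 * q0)
    (hr1 : d ^ 3 * r1 = a * (a - d) * b1 * (q1 * d - 2 * q0))
    (hr2 : d ^ 4 * r2 = a * (a - d) * b1 * (q2 * d ^ 2 - 2 * q1 * d + 3 * q0)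
      + a * (a - d) * q0 * b2 - b1 * b2 * a * d ^ 2) :
    w ^ 3 ∣ (w ^ 4 + l * b1 * w ^ 2 * (w + a) + l ^ 2 * (w + a) * (r0 + r1 * w + r2 * w ^ 2)) *
        (w + d) ^ 2 * ((w + d) ^ 2 + l * b2 * (w + a)) +
      l * a * (a - d) * (q0 + q1 * w + q2 * w ^ 2 + q3 * w ^ 3) * (w ^ 2 - l * b1 * (w + a)) *
        ((w + d) ^ 2 - l * b2 * (w + a)) := by
  refine ⟨
      6*d^2*l^2*r0 + 4*d^3*l^2*r1 + d^4*l*b1 + d^4*l^2*r2 + 4*a*d*l^2*r0 + a*d*l^2*q0*b2 + a*d*l^2*q0*b1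
      - 2*a*d^2*l*q0 + 6*a*d^2*l^2*r1 + 2*a*d^2*l^2*b1*b2 + 2*a*d^2*l^2*q1*b1 + 4*a*d^3*l*b1 - a*d^3*l*q1
      + 4*a*d^3*l^2*r2 + a*d^3*l^2*q2*b1 - a^2*l^2*q0*b2 - a^2*l^2*q0*b1 + 2*a^2*d*l*q0 + 2*a^2*d*l^2*b1*b2
      + a^2*d*l^2*q1*b2 - a^2*d*l^2*q1*b1 + a^2*d^2*l*q1 + a^2*d^2*l^2*q2*b1 + a^2*d^3*l^2*q3*b1 - a^3*l^2*q1*b2
      - a^3*l^2*q1*b1 - 2*a^3*d*l^2*q2*b1 - a^3*d^2*l^2*q3*b1 + 4*w*d*l^2*r0 + 6*w*d^2*l^2*r1 + w*d^2*l^2*b1*b2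
      + 4*w*d^3*l*b1 + 4*w*d^3*l^2*r2 + w*d^4 + w*a*l^2*r0 - w*a*d*l*q0 + 4*w*a*d*l^2*r1 + 4*w*a*d*l^2*b1*b2
      + w*a*d*l^2*q1*b2 + w*a*d*l^2*q1*b1 + w*a*d^2*l*b2 + 6*w*a*d^2*l*b1 - 2*w*a*d^2*l*q1 + 6*w*a*d^2*l^2*r2
      + 2*w*a*d^2*l^2*q2*b1 - w*a*d^3*l*q2 + w*a*d^3*l^2*q3*b1 + w*a^2*l*q0 + w*a^2*l^2*b1*b2 - w*a^2*l^2*q1*b2
      - w*a^2*l^2*q1*b1 + 2*w*a^2*d*l*q1 + w*a^2*d*l^2*q2*b2 - w*a^2*d*l^2*q2*b1 + w*a^2*d^2*l*q2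
      + w*a^2*d^2*l^2*q3*b1 - w*a^3*l^2*q2*b2 - w*a^3*l^2*q2*b1 - 2*w*a^3*d*l^2*q3*b1 + w^2*l^2*r0
      + 4*w^2*d*l^2*r1 + 2*w^2*d*l^2*b1*b2 + w^2*d^2*l*b2 + 6*w^2*d^2*l*b1 + 6*w^2*d^2*l^2*r2 + 4*w^2*d^3
      + w^2*a*l^2*r1 + 2*w^2*a*l^2*b1*b2 + 2*w^2*a*d*l*b2 + 4*w^2*a*d*l*b1 - w^2*a*d*l*q1 + 4*w^2*a*d*l^2*r2
      + w^2*a*d*l^2*q2*b2 + w^2*a*d*l^2*q2*b1 - 2*w^2*a*d^2*l*q2 + 2*w^2*a*d^2*l^2*q3*b1 - w^2*a*d^3*l*q3
      + w^2*a^2*l*q1 - w^2*a^2*l^2*q2*b2 - w^2*a^2*l^2*q2*b1 + 2*w^2*a^2*d*l*q2 + w^2*a^2*d*l^2*q3*b2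
      - w^2*a^2*d*l^2*q3*b1 + w^2*a^2*d^2*l*q3 - w^2*a^3*l^2*q3*b2 - w^2*a^3*l^2*q3*b1 + w^3*l^2*r1
      + w^3*l^2*b1*b2 + 2*w^3*d*l*b2 + 4*w^3*d*l*b1 + 4*w^3*d*l^2*r2 + 6*w^3*d^2 + w^3*a*l*b2 + w^3*a*l*b1
      + w^3*a*l^2*r2 - w^3*a*d*l*q2 + w^3*a*d*l^2*q3*b2 + w^3*a*d*l^2*q3*b1 - 2*w^3*a*d^2*l*q3 + w^3*a^2*l*q2
      - w^3*a^2*l^2*q3*b2 - w^3*a^2*l^2*q3*b1 + 2*w^3*a^2*d*l*q3 + w^4*l*b2 + w^4*l*b1 + w^4*l^2*r2
      + 4*w^4*d - w^4*a*d*l*q3 + w^4*a^2*l*q3 + w^5, ?_⟩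
  linear_combination l ^ 2 * (a * d ^ 2 + w * (d ^ 2 + 4 * a * d) + w ^ 2 * (4 * d + 6 * a)) * hr0
    + l ^ 2 * (w * a * d + w ^ 2 * (d + 4 * a)) * hr1 + l ^ 2 * w ^ 2 * a * hr2
    + l * w ^ 2 * a * d ^ 2 * h1 + (
      a^2*d^2*b2*r0 - a^3*d*q0*b1*b2 + a^4*q0*b1*b2 + 2*w*a*d^2*b2*r0 + 2*w*a^2*d*b2*r0 - 2*w*a^2*d*q0*b1*b2
      + w*a^2*d^2*b2*r1 + 2*w*a^3*q0*b1*b2 - w*a^3*d*q1*b1*b2 + w*a^4*q1*b1*b2 + w^2*d^2*b2*r0 + 4*w^2*a*d*b2*r0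
      - w^2*a*d*q0*b1*b2 + 2*w^2*a*d^2*b2*r1 + w^2*a^2*b2*r0 + w^2*a^2*q0*b1*b2 + 2*w^2*a^2*d*b2*r1
      - 2*w^2*a^2*d*q1*b1*b2 + w^2*a^2*d^2*b2*r2 + 2*w^2*a^3*q1*b1*b2 - w^2*a^3*d*q2*b1*b2 + w^2*a^4*q2*b1*b2
      + 2*w^3*d*b2*r0 + w^3*d^2*b2*r1 + 2*w^3*a*b2*r0 + 4*w^3*a*d*b2*r1 - w^3*a*d*q1*b1*b2 + 2*w^3*a*d^2*b2*r2
      + w^3*a^2*b2*r1 + w^3*a^2*q1*b1*b2 + 2*w^3*a^2*d*b2*r2 - 2*w^3*a^2*d*q2*b1*b2 + 2*w^3*a^3*q2*b1*b2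
      - w^3*a^3*d*q3*b1*b2 + w^3*a^4*q3*b1*b2 + w^4*b2*r0 + 2*w^4*d*b2*r1 + w^4*d^2*b2*r2 + 2*w^4*a*b2*r1
      + 4*w^4*a*d*b2*r2 - w^4*a*d*q2*b1*b2 + w^4*a^2*b2*r2 + w^4*a^2*q2*b1*b2 - 2*w^4*a^2*d*q3*b1*b2
      + 2*w^4*a^3*q3*b1*b2 + w^5*b2*r1 + 2*w^5*d*b2*r2 + 2*w^5*a*b2*r2 - w^5*a*d*q3*b1*b2 + w^5*a^2*q3*b1*b2
      + w^6*b2*r2) * hl

namespace QQ

variable {J : ℕ} {a1 a2 La : A} {Q U1 V1 U2 V2 : A[X]}

theorem ord2_exact {l q0 q1 q2 q3 b1 b2 r0 r1 r2 : A}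
    (h : QQ (J + 3) a1 a2 (l * a1 * a2) Q U1 V1 U2 V2) (hl : l ^ 3 = 0)
    (hQ : Q = C q0 + C q1 * (X - C a1) + C q2 * (X - C a1) ^ 2 + C q3 * (X - C a1) ^ 3)
    (h1 : (a1 - a2) ^ 2 * b1 = -a2 * q0) (h2 : (a1 - a2) ^ 2 * b2 = -a1 * Q.eval a2)
    (hr0 : (a1 - a2) ^ 2 * r0 = a1 * a2 * b1 * q0)
    (hr1 : (a1 - a2) ^ 3 * r1 = a1 * a2 * b1 * (q1 * (a1 - a2) - 2 * q0))
    (hr2 : (a1 - a2) ^ 4 * r2 = a1 * a2 * b1 * (q2 * (a1 - a2) ^ 2 - 2 * q1 * (a1 - a2) + 3 * q0)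
      + a1 * a2 * q0 * b2 - b1 * b2 * a1 * (a1 - a2) ^ 2) :
    U1 = (X - C a1) ^ J * ((X - C a1) ^ 4 + (C l * C b1 * (X - C a1) ^ 2 * X +
      C l ^ 2 * X * (C r0 + C r1 * (X - C a1) + C r2 * (X - C a1) ^ 2))) := by
  have hl' : (C l : A[X]) ^ 3 = 0 := by rw [← map_pow, hl, map_zero]
  have hq0 : Q.eval a1 = q0 := by simp [hQ]
  obtain ⟨-, R1, hV1⟩ := h.ord1 (b1 := b1) (by rw [hq0, h1])
  have hs := h.swap
  rw [mul_right_comm] at hs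
  obtain ⟨⟨R2, hU2⟩, R3, hV2⟩ := hs.ord1 (b1 := b2) (by rw [← h2]; ring)
  refine h.eq_of_dvd (lead_pow_mul J 3 a1 _ ?_ _ rfl) (by simp; ring) ?_
  · compute_degree
  · have key := ord2_aux (X - C a1) (C a1) (C a1 - C a2) (C l) (C q0) (C q1) (C q2) (C q3) (C b1)
      (C b2) (C r0) (C r1) (C r2) hl' (by simpa using congrArg C h1)
      (by simpa using congrArg C hr0) (by simpa [map_ofNat] using congrArg C hr1)
      (by simpa [map_ofNat] using congrArg C hr2)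
    obtain ⟨K, hK⟩ := key
    rw [← hQ] at hK
    refine ⟨(X - C a2) ^ J * K + C l ^ 2 * (X - C a1) * R2, ?_⟩
    rw [hV1, hV2, hU2]
    simp only [map_mul]
    linear_combination (X - C a1) ^ J * (X - C a2) ^ J * hK +
      ((X - C a1) ^ J * (C b1 * (X - C a1) ^ 2 * X +
        C l * X * (C r0 + C r1 * (X - C a1) + C r2 * (X - C a1) ^ 2)) * R2 +
      C a1 * C a2 * Q * (R1 * ((X - C a2) ^ J * ((X - C a2) ^ 2 - C l * C b2 * X)) +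
        (X - C a1) ^ J * ((X - C a1) ^ 2 - C l * C b1 * X) * R3 + C l ^ 2 * R1 * R3)) * hl'

end QQ

end Crest.Agent.N265.Formal
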