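import Crest.Agent.N265.Formal.Edge

/-!
# Row 265, formal layer: the family theorem (helper3)
-/

set_option autoImplicit false

open Polynomial Finset

namespace Crest.Agent.N265.Formal

universe u

section graded
variable {U M : Type*} [CommRing U] [AddCommGroup M]

/-- coefficient of `Λ^ν` in the generating series -/
noncomputable def gr (ν : ℕ) (F : ℕ → (U →+ M)) : U[X] →+ M :=
  ∑ k ∈ range (ν + 1), (F (ν - k)).comp (lcoeff U k).toAddMonoidHom

theorem gr_apply (ν : ℕ) (F : ℕ → (U →+ M)) (p : U[X]) :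
    gr ν F p = ∑ k ∈ range (ν + 1), F (ν - k) (p.coeff k) := by
  simp [gr]

theorem gr_monomial (ν : ℕ) (F : ℕ → (U →+ M)) (j : ℕ) (u : U) :
    gr ν F (monomial j u) = if j ≤ ν then F (ν - j) u else 0 := by
  rw [gr_apply]
  split_ifs with h
  · rw [sum_eq_single_of_mem j (mem_range.2 (by omega)), coeff_monomial, if_pos rfl]
    intro b _ hb; rw [coeff_monomial, if_neg hb.symm, map_zero]
  · refine sum_eq_zero fun b hb => ?_
    rw [coeff_monomial, if_neg (by have := mem_range.1 hb; omega), map_zero]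

theorem gr_eq_zero {ν : ℕ} {F : ℕ → (U →+ M)} {p : U[X]}
    (h : ∀ k ≤ ν, F (ν - k) (p.coeff k) = 0) : gr ν F p = 0 := by
  rw [gr_apply]
  exact sum_eq_zero fun k hk => h k (by have := mem_range.1 hk; omega)

theorem gr_rec {ν : ℕ} {F H : ℕ → (U →+ M)} {r1 r2 r3 : U} (h0 : ∀ u, F 0 (u * r1) = 0)
    (h : ∀ k < ν, ∀ u, F (k + 1) (u * r1) + F k (u * r2) = H k (u * r3)) (m : U[X]) :
    gr ν F (m * (C r1 + X * C r2)) = gr ν H (m * (X * C r3)) := by
  induction m using Polynomial.induction_on' with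
  | add p q hp hq => rw [add_mul, add_mul, map_add, map_add, hp, hq]
  | monomial j u =>
    rw [mul_add, ← mul_assoc, ← mul_assoc, monomial_mul_X, monomial_mul_C, monomial_mul_C,
      monomial_mul_C, map_add, gr_monomial, gr_monomial, gr_monomial]
    rcases Nat.lt_trichotomy j ν with hj | rfl | hj
    · rw [if_pos hj.le, if_pos (Nat.succ_le_of_lt hj), if_pos (Nat.succ_le_of_lt hj),
        show ν - j = ν - (j + 1) + 1 by omega]
      exact h _ (by omega) u
    · simp [h0]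
    · rw [if_neg (by omega), if_neg (by omega), if_neg (by omega), add_zero]

theorem gr_four {ν : ℕ} (F : ℕ → (U →+ M)) {p : U[X]} (hp : p.natDegree ≤ 3) :
    gr ν F p = ∑ k ∈ range 4, if k ≤ ν then F (ν - k) (p.coeff k) else 0 := by
  conv_lhs => rw [as_sum_range' p 4 (by omega), map_sum]
  simp only [gr_monomial]

theorem Fac.of_family {A I : Type*} [CommRing A] {S : I → Type*} [∀ i, CommRing (S i)]
    (f : ∀ i, U →+* S i) (θ : U →+* A) (hθ : ∀ u, (∀ i, f i u = 0) → θ u = 0) {J : ℕ} {a : U}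
    {P Q : U[X]} (h : ∀ i, Fac J (f i a) (P.map (f i)) (Q.map (f i))) :
    Fac J (θ a) (P.map θ) (Q.map θ) := by
  have h1 : ∀ u u', (∀ i, f i u = f i u') → θ u = θ u' := fun u u' e => by
    rw [← sub_eq_zero, ← map_sub]
    exact hθ _ fun i => by rw [map_sub, e, sub_self]
  refine ⟨⟨?_, fun k hk => ?_⟩, ?_, ?_⟩
  · rw [coeff_map, ← map_one θ]
    exact h1 _ _ fun i => by rw [← coeff_map, (h i).lead.top, map_one]
  · rw [coeff_map]
    exact hθ _ fun i => by rw [← coeff_map, (h i).lead.hi k hk]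
  · have e : ∀ {A' : Type _} [CommRing A'] (g : U →+* A'), (X - C (g a)) ^ (2 * J) =
      ((X - C a) ^ (2 * J)).map g := by intros; simp
    ext k
    rw [← Polynomial.map_mul, e, coeff_map, coeff_map]
    refine h1 _ _ fun i => ?_
    rw [← coeff_map, ← coeff_map, Polynomial.map_mul, (h i).mul]; simp
  · rw [← coeff_zero_eq_eval_zero, coeff_map, ← map_neg, ← map_pow]
    exact h1 _ _ fun i => by
      rw [← coeff_map, coeff_zero_eq_eval_zero, (h i).ev0, map_pow, map_neg]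

theorem res_lift1 (J k : ℕ) (a l0 a1 a2 m1 m2 : U) (U1 V1 U2 V2 : U[X]) :
    res ((X - C (C a)) ^ J) (X ^ k * (U1.map C * U2.map C + C (C l0 * X * C a1 * C a2) *
      ((X - C (C m1)) * (X - C (C m2))) * V1.map C * V2.map C)) =
    C (res ((X - C a) ^ J) (X ^ k * (U1 * U2))) + X * C (l0 * a1 * a2 *
      res ((X - C a) ^ J) (X ^ k * (X ^ 0 * ((X - C m1) * (X - C m2)) * V1 * V2))) := by
  rw [map_mul C (l0 * a1 * a2), ← res_map _ ((monic_X_sub_C _).pow _),
    ← res_map _ ((monic_X_sub_C _).pow _), ← res_C_mul, ← res_C_mul, mul_add, res_add]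
  simp only [Polynomial.map_mul, Polynomial.map_pow, Polynomial.map_sub, map_X, map_C, map_mul]
  refine congrArg₂ _ rfl (congrArg _ ?_)
  ring

theorem res_lift2 (J k : ℕ) (a l0 a1 a2 m1 m2 : U) (V1 V2 : U[X]) :
    res ((X - C (C a)) ^ J) (X ^ k * (C (C l0 * X * C a1 * C a2) *
      (X * ((X - C (C m1)) * (X - C (C m2)))) * V1.map C * V2.map C)) =
    X * C (l0 * a1 * a2 *
      res ((X - C a) ^ J) (X ^ k * (X ^ 1 * ((X - C m1) * (X - C m2)) * V1 * V2))) := by
  rw [map_mul C (l0 * a1 * a2), ← res_map _ ((monic_X_sub_C _).pow _), ← res_C_mul, ← res_C_mul]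
  simp only [Polynomial.map_mul, Polynomial.map_pow, Polynomial.map_sub, map_X, map_C, map_mul]
  refine congrArg _ ?_
  ring

end graded

variable {K M M' : Type*} [AddCommGroup K] [AddCommGroup M] [AddCommGroup M']

/-- the base inside the universal ring, with the variable `Λ` -/
noncomputable abbrev iz (J : ℕ) : Bz[X] →+* (Uz J)[X] := mapRingHom MvPolynomial.C
/-- base generators -/
noncomputable def gz (i : Fin 8) : Bz[X] := C (MvPolynomial.X i)

theorem iz_gz (J : ℕ) (i : Fin 8) : iz J (gz i) = C (bz J i) := by simp [gz, bz]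

theorem iz_X (J : ℕ) : iz J X = X := map_X _

theorem mkRec {I : Type*} {S : I → Type*} [∀ i, CommRing (S i)] (z : ∀ i, Lev (S i) K M) {J ν : ℕ}
    (hz : ∀ i, (z i).Ok (J + 2)) (𝒜 𝓛 : ℕ → (Uz (J + 2) →+ M'))
    (hN : ∀ u, (∀ i, (z i).ev _ u = 0) → ∀ k ≤ ν, 𝒜 k u = 0 ∧ 𝓛 k u = 0)
    (hb : ∀ k ≤ ν, ∀ b, 𝒜 k (MvPolynomial.C b) = 0)
    (h0 : ∀ i, i = 0 ∨ i = 1 → ∀ k u, 𝓛 0 (u * rU _ i k) = 0 ∧ 𝒜 0 (u * rU _ i k) = 0)
    (h1 : ∀ i, i = 0 ∨ i = 1 → ∀ k, ∀ j < ν, ∀ u,
      𝓛 (j + 1) (u * rU _ i k) + 𝓛 j (u * rV _ i 0 k) = 0 ∧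
      𝒜 (j + 1) (u * rU _ i k) + 𝒜 j (u * rV _ i 0 k) = 𝓛 j (u * rV _ i 1 k)) :
    Rec (J + 2) (iz (J + 2)) (gz 0) (gz 1) (gz 2) (gz 3) (gz 4 * X) ((up _ 0).map C)
      ((up _ 1).map C) ((up _ 2).map C) ((up _ 3).map C) (gr ν 𝒜) (gr ν 𝓛) := by
  have hi : ∀ a, a = gz 0 ∨ a = gz 1 → ∃ i, (i = 0 ∨ i = 1) ∧ a = gz i := by
    rintro a (rfl | rfl)
    exacts [⟨0, Or.inl rfl, rfl⟩, ⟨1, Or.inr rfl, rfl⟩]
  refine ⟨?_, ?_, ⟨ν + 1, fun m => ?_⟩, fun b => ?_, fun a ha k m => ?_, fun a ha k m => ?_⟩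
  · intro κ hκ
    have hθ : ∀ u, (∀ i, (z i).ev _ u = 0) → κ.comp C u = 0 := by
      intro u hu
      rw [hκ]
      refine Ideal.Quotient.eq_zero_iff_mem.2 ⟨fun p => ?_, fun p => ?_⟩ <;>
        refine gr_eq_zero fun k hk => ?_ <;> rw [coeff_C_mul]
      · exact (hN _ (fun i => by rw [map_mul, hu, zero_mul]) _ (by omega)).1
      · exact (hN _ (fun i => by rw [map_mul, hu, zero_mul]) _ (by omega)).2
    have hu : ∀ a b : Uz (J + 2), (∀ i, (z i).ev _ a * (z i).ev _ b = 1) → IsUnit (κ (C a)) := by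
      intro a b h
      refine IsUnit.of_mul_eq_one (κ (C b)) ?_
      have := hθ (a * b - 1) fun i => by rw [map_sub, map_mul, h, map_one, sub_self]
      simpa [sub_eq_zero] using this
    simp only [iz_gz, Polynomial.map_map]
    refine ⟨Fac.of_family _ (κ.comp C) hθ fun i => ?_, Fac.of_family _ (κ.comp C) hθ fun i => ?_,
      hu _ (bz _ 5) fun i => ?_, hu _ (bz _ 6) fun i => ?_, ?_⟩
    · rw [Lev.map_up (hz i), Lev.map_up (hz i), Lev.ev_bz]; exact (hz i).c1.fac
    · rw [Lev.map_up (hz i), Lev.map_up (hz i), Lev.ev_bz]; exact (hz i).c2.fac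
    · rw [Lev.ev_bz, Lev.ev_bz]; exact Ring.mul_inverse_cancel _ (hz i).u1
    · rw [Lev.ev_bz, Lev.ev_bz]; exact Ring.mul_inverse_cancel _ (hz i).u2
    · rw [← map_sub, ← map_sub]
      refine hu _ (bz _ 7) fun i => ?_
      rw [map_sub, Lev.ev_bz, Lev.ev_bz, Lev.ev_bz]; exact Ring.mul_inverse_cancel _ (hz i).ud
  · intro E hE c0 c1 c2 c3 p
    have hC : ∀ u, C u ∈ E := by
      intro u
      induction u using MvPolynomial.induction_on with
      | C b => simpa using hE (C b)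
      | add p q hp hq => rw [map_add]; exact add_mem hp hq
      | mul_X p s hp =>
        rw [map_mul]
        refine mul_mem hp ?_
        obtain ⟨s, k⟩ := s
        rw [← coeff_up, ← coeff_map]
        fin_cases s
        exacts [c0 k, c1 k, c2 k, c3 k]
    induction p using Polynomial.induction_on' with
    | add p q hp hq => exact add_mem hp hq
    | monomial j u =>
      rw [← C_mul_X_pow_eq_monomial]
      exact mul_mem (hC u) (pow_mem (by simpa using hE X) _)
  · have : iz (J + 2) (gz 4 * X) ^ (ν + 1) * m = X ^ (ν + 1) * (C (bz _ 4) ^ (ν + 1) * m) := by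
      rw [map_mul, iz_gz, coe_mapRingHom, map_X]; ring
    rw [this]
    constructor <;> refine gr_eq_zero fun k hk => ?_ <;>
      rw [coeff_X_pow_mul', if_neg (by omega), map_zero]
  · refine gr_eq_zero fun k hk => ?_
    rw [coe_mapRingHom, coeff_map]
    exact hb _ (by omega) _
  · obtain ⟨i, hi, rfl⟩ := hi a ha
    simp only [map_mul (iz _), iz_gz, iz_X]
    rw [res_lift1, ← rU, ← rV, gr_rec (H := fun _ => 0) (r3 := 0) (fun u => (h0 i hi k u).1)
      (fun j hj u => (h1 i hi k j hj u).1)]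
    simp
  · obtain ⟨i, hi, rfl⟩ := hi a ha
    simp only [map_mul (iz _), iz_gz, iz_X]
    rw [res_lift1, res_lift2, ← rU, ← rV, ← rV,
      gr_rec (fun u => (h0 i hi k u).2) (fun j hj u => (h1 i hi k j hj u).2)]

section family

variable {R : ℕ × ℕ → Type u} [∀ n, CommRing (R n)]

/-- numeric correlators of level `k` -/
noncomputable def SL (J : ℕ) (x : ∀ n, Lev (R n) K M) (k : ℕ) : Uz J →+ K :=
  ∑ n ∈ HasAntidiagonal.antidiagonal k, (x n).L.comp ((x n).ev J).toAddMonoidHom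
/-- surface-valued correlators of level `k` -/
noncomputable def SG (J : ℕ) (x : ∀ n, Lev (R n) K M) (k : ℕ) : Uz J →+ M :=
  ∑ n ∈ HasAntidiagonal.antidiagonal k, (x n).Γ.comp ((x n).ev J).toAddMonoidHom

theorem SL_apply (J : ℕ) (x : ∀ n, Lev (R n) K M) (k : ℕ) (u : Uz J) :
    SL J x k u = ∑ n ∈ HasAntidiagonal.antidiagonal k, (x n).L ((x n).ev J u) := by simp [SL]
theorem SG_apply (J : ℕ) (x : ∀ n, Lev (R n) K M) (k : ℕ) (u : Uz J) :
    SG J x k u = ∑ n ∈ HasAntidiagonal.antidiagonal k, (x n).Γ ((x n).ev J u) := by simp [SG]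

theorem Hecke.mono {ν J J' : ℕ} {x : ∀ n, Lev (R n) K M} {v : K →+ M} (h : Hecke ν J x v)
    (hJ : J ≤ J') : Hecke ν J' x v :=
  ⟨fun n hn => (h.ok n hn).mono hJ, h.bot1, h.bot2, h.up1, h.up2⟩

theorem Hecke.z1 {ν J : ℕ} {x : ∀ n, Lev (R n) K M} {v : K →+ M} (h : Hecke ν (J + 2) x v)
    {j : ℕ} (hj : j ≤ ν) (k : ℕ) (u : Uz (J + 2)) : (x (0, j)).ev _ (u * rU _ 0 k) = 0 := by
  have ok := h.ok (0, j) (by simpa using hj)
  rw [map_mul, Lev.ev_rU ok, res_of_dvd ((monic_X_sub_C _).pow _), mul_zero]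
  exact ((ok.c1.U_bot (h.bot1 j hj)).mul_right _).mul_left _

theorem Hecke.z2 {ν J : ℕ} {x : ∀ n, Lev (R n) K M} {v : K →+ M} (h : Hecke ν (J + 2) x v)
    {j : ℕ} (hj : j ≤ ν) (k : ℕ) (u : Uz (J + 2)) : (x (j, 0)).ev _ (u * rU _ 1 k) = 0 := by
  have ok := h.ok (j, 0) (by simpa using hj)
  rw [map_mul, Lev.ev_rU ok, res_of_dvd ((monic_X_sub_C _).pow _), mul_zero]
  exact ((ok.c2.U_bot (h.bot2 j hj)).mul_left _).mul_left _

theorem Hecke.s0 {ν J : ℕ} {x : ∀ n, Lev (R n) K M} {v : K →+ M} (h : Hecke ν (J + 2) x v)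
    (i : Fin 8) (hi : i = 0 ∨ i = 1) (k : ℕ) (u : Uz (J + 2)) :
    SL _ x 0 (u * rU _ i k) = 0 ∧ SG _ x 0 (u * rU _ i k) = 0 := by
  have : (x (0, 0)).ev _ (u * rU _ i k) = 0 := by
    rcases hi with rfl | rfl
    exacts [h.z1 (Nat.zero_le _) k u, h.z2 (Nat.zero_le _) k u]
  rw [SL_apply, SG_apply, Nat.antidiagonal_zero, sum_singleton, sum_singleton, this]
  simp

theorem Hecke.s1 {ν J : ℕ} {x : ∀ n, Lev (R n) K M} {v : K →+ M} (h : Hecke ν (J + 2) x v)
    (i : Fin 8) (hi : i = 0 ∨ i = 1) (k : ℕ) {j : ℕ} (hj : j < ν) (u : Uz (J + 2)) :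
    SL _ x (j + 1) (u * rU _ i k) + SL _ x j (u * rV _ i 0 k) = 0 ∧
    SG _ x (j + 1) (u * rU _ i k) + SG _ x j (u * rV _ i 0 k) =
      v (SL _ x j (u * rV _ i 1 k)) := by
  simp only [SL_apply, SG_apply, map_sum]
  rcases hi with rfl | rfl
  · have := fun (n : ℕ × ℕ) (hn : n ∈ HasAntidiagonal.antidiagonal j) =>
      have e := mem_antidiagonal.1 hn
      (h.up1 n.1 n.2 (by omega)).rec1 (h.ok n (by omega)) (h.ok _ (by simp; omega)) k u
    rw [Nat.sum_antidiagonal_succ, Nat.sum_antidiagonal_succ, h.z1 hj, map_zero, map_zero,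
      zero_add, zero_add, ← sum_add_distrib, ← sum_add_distrib]
    exact ⟨sum_eq_zero fun n hn => (this n hn).1, sum_congr rfl fun n hn => (this n hn).2⟩
  · have := fun (n : ℕ × ℕ) (hn : n ∈ HasAntidiagonal.antidiagonal j) =>
      have e := mem_antidiagonal.1 hn
      (h.up2 n.1 n.2 (by omega)).rec2 (h.ok n (by omega)) (h.ok _ (by simp; omega)) k u
    rw [Nat.sum_antidiagonal_succ', Nat.sum_antidiagonal_succ', h.z2 hj, map_zero, map_zero,
      zero_add, zero_add, ← sum_add_distrib, ← sum_add_distrib]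
    exact ⟨sum_eq_zero fun n hn => (this n hn).1, sum_congr rfl fun n hn => (this n hn).2⟩

theorem natDegree_Gins {A : Type*} [CommRing A] (m1 m2 l0 h c : A) :
    (Gins (C m1) (C m2) (C h) (C l0 * X) (C c)).natDegree ≤ 3 := by
  unfold Gins; compute_degree!
theorem natDegree_Fins {A : Type*} [CommRing A] (m1 m2 l0 h c : A) :
    (Fins (C m1) (C m2) (C h) (C l0 * X) (C c)).natDegree ≤ 3 := by
  unfold Fins LL; simp only [mul_zero, zero_add]; compute_degree!

theorem family : FamilyStmt.{u} K M := by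
  intro ν J R _ x y v v' hx hy hs
  replace hx := hx.mono (J' := J + 1 + 2) (by omega)
  replace hy := hy.mono (J' := J + 1 + 2) (by omega)
  let I := {n : ℕ × ℕ // n.1 + n.2 ≤ ν} × Bool
  let z : ∀ i : I, Lev (R i.1.1) K M := fun i => cond i.2 (x i.1.1) (y i.1.1)
  have hz : ∀ i, (z i).Ok (J + 1 + 2) := by
    rintro ⟨⟨n, hn⟩, _ | _⟩
    exacts [hy.ok n hn, hx.ok n hn]
  have hN : ∀ u, (∀ i, (z i).ev (J + 1 + 2) u = 0) → ∀ k ≤ ν,
      (SL _ x k u = 0 ∧ SL _ y k u = 0) ∧ SG _ x k u = 0 ∧ SG _ y k u = 0 := by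
    intro u hu k hk
    have := fun (n : ℕ × ℕ) (hn : n ∈ HasAntidiagonal.antidiagonal k) b =>
      hu (⟨n, (mem_antidiagonal.1 hn).trans_le hk⟩, b)
    simp only [SL_apply, SG_apply]
    refine ⟨⟨?_, ?_⟩, ?_, ?_⟩ <;> refine sum_eq_zero fun n hn => ?_
    exacts [(congrArg (x n).L (this n hn true)).trans (map_zero _),
      (congrArg (y n).L (this n hn false)).trans (map_zero _),
      (congrArg (x n).Γ (this n hn true)).trans (map_zero _),
      (congrArg (y n).Γ (this n hn false)).trans (map_zero _)]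
  have hB : ∀ k ≤ ν, ∀ b, SL (J + 1 + 2) x k (MvPolynomial.C b) =
      SL (J + 1 + 2) y k (MvPolynomial.C b) ∧
      SG (J + 1 + 2) x k (MvPolynomial.C b) = SG (J + 1 + 2) y k (MvPolynomial.C b) := by
    intro k hk b
    simp only [SL_apply, SG_apply, Lev.ev_C]
    constructor <;> refine sum_congr rfl fun n hn => ?_ <;>
      have := hs n ((mem_antidiagonal.1 hn).trans_le hk)
    · rw [this.evB, this.L]
    · rw [this.evB, this.Γ]
  -- the numeric correlators do not depend on the point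
  have r1 := mkRec z hz (fun k => SL _ x k - SL _ y k) (fun _ => 0)
    (fun u hu k hk => ⟨by simp [(hN u hu k hk).1.1, (hN u hu k hk).1.2], rfl⟩)
    (fun k hk b => sub_eq_zero.2 (hB k hk b).1)
    (fun i hi k u => ⟨rfl, by simp [-map_mul, (hx.s0 i hi k u).1, (hy.s0 i hi k u).1]⟩)
    (fun i hi k j hj u => ⟨by simp, by
      have a := (hx.s1 i hi k hj u).1
      have b := (hy.s1 i hi k hj u).1
      simp only [AddMonoidHom.sub_apply, AddMonoidHom.zero_apply]
      rw [sub_add_sub_comm, a, b, sub_self]⟩)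
  have hL : ∀ k ≤ ν, ∀ u, SL (J + 1 + 2) y k u = SL _ x k u := by
    intro k hk u
    rw [show gr ν (fun _ => (0 : Uz (J + 1 + 2) →+ K)) = 0 by simp [gr]] at r1
    have := r1.zero (monomial (ν - k) u)
    rw [gr_monomial, if_pos (by omega), show ν - (ν - k) = k by omega] at this
    exact (sub_eq_zero.1 this).symm
  have r2 := mkRec z hz (fun k => SG _ x k - SG _ y k) (fun k => (v - v').comp (SL _ x k))
    (fun u hu k hk => ⟨by simp [(hN u hu k hk).2.1, (hN u hu k hk).2.2], by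
      simp [(hN u hu k hk).1.1]⟩)
    (fun k hk b => sub_eq_zero.2 (hB k hk b).2)
    (fun i hi k u => ⟨by simp [-map_mul, (hx.s0 i hi k u).1],
      by simp [-map_mul, (hx.s0 i hi k u).2, (hy.s0 i hi k u).2]⟩)
    (fun i hi k j hj u => ⟨by
      simp only [AddMonoidHom.comp_apply]
      rw [← map_add, (hx.s1 i hi k hj u).1, map_zero], by
      have a := (hx.s1 i hi k hj u).2
      have b := (hy.s1 i hi k hj u).2
      simp only [AddMonoidHom.sub_apply, AddMonoidHom.comp_apply]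
      rw [sub_add_sub_comm, a, b, hL j hj.le]⟩)
  -- the value of the insertion
  have hv : Rec.val (J + 1 + 2) (iz (J + 1 + 2)) (gz 0) (gz 1) (gz 2) (gz 3) (gz 4 * X) ((up _ 0).map C)
      ((up _ 2).map C) (gr ν fun k => SG _ x k - SG _ y k)
      (gr ν fun k => (v - v').comp (SL _ x k)) = total ν x y v v' := by
    have hc : ∀ {A : Type u} [CommRing A] (w : Lev A K M), w.Ok (J + 1 + 2) →
        w.ev (J + 1 + 2) (cc (J + 1 + 2) (bz _ 0) (up _ 0) +
          cc (J + 1 + 2) (bz _ 1) (up _ 2)) = w.c := by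
      intro A _ w hw
      rw [map_add, ← cc_map, ← cc_map, Lev.map_up hw, Lev.map_up hw, Lev.ev_bz, Lev.ev_bz]
      exact congrArg₂ _ hw.c1.cc_eq hw.c2.cc_eq
    simp only [Rec.val, map_mul (iz _), iz_gz, iz_X, cc_map]
    rw [← map_add C, ← map_mul C, gr_four _ (natDegree_Gins _ _ _ _ _),
      gr_four _ (natDegree_Fins _ _ _ _ _), ← sum_add_distrib, total]
    refine sum_congr rfl fun k _ => ?_
    split_ifs with hk
    swap
    · simp
    rw [← Gk, ← Fk, AddMonoidHom.sub_apply, AddMonoidHom.comp_apply, SG_apply, SG_apply, SL_apply,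
      map_sum, ← sum_sub_distrib, ← sum_add_distrib]
    refine sum_congr rfl fun n hn => ?_
    have hn' : n.1 + n.2 ≤ ν := (mem_antidiagonal.1 hn).trans_le (by omega)
    simp only [Gk_map, Fk_map, hc _ (hx.ok n hn'), hc _ (hy.ok n hn'), map_mul, Lev.ev_bz]
    rfl
  -- evaluation of `Φ₁` on the base
  have hΦ : ∀ (g : Bz) (b : Bz[X]), (∀ n : ℕ × ℕ, n.1 + n.2 ≤ ν → ∀ r,
      (x n).L ((x n).evB g * r) = 0) →
      gr ν (fun k => (v - v').comp (SL (J + 1 + 2) x k)) (iz _ (C g * b)) = 0 := by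
    intro g b h
    refine gr_eq_zero fun k hk => ?_
    rw [coe_mapRingHom, coeff_map, coeff_C_mul, AddMonoidHom.comp_apply, SL_apply,
      sum_eq_zero, map_zero]
    intro n hn
    rw [Lev.ev_C, map_mul]
    exact h n ((mem_antidiagonal.1 hn).trans_le (by omega)) _
  have hX : ∀ i {A : Type u} [CommRing A] (w : Lev A K M), w.evB (MvPolynomial.X i) = w.bs i := by
    intro i A _ w; simp [Lev.evB]
  have low : ν ≤ 2 → total ν x y v v' = if 2 ≤ ν then (v - v') (SL (J + 1 + 2) x (ν - 2)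
      (MvPolynomial.C (1800 * (MvPolynomial.X 4 * (MvPolynomial.X 0 * MvPolynomial.X 1) *
        MvPolynomial.X 7) ^ 2 * ((MvPolynomial.X 0 - MvPolynomial.X 2) *
        (MvPolynomial.X 0 - MvPolynomial.X 3)) * ((MvPolynomial.X 1 - MvPolynomial.X 2) *
        (MvPolynomial.X 1 - MvPolynomial.X 3))))) else 0 := by
    intro hν
    rw [← hv, r2.ord2 (d := gz 7)]
    · refine (congrArg _ ?_).trans (gr_monomial _ _ 2 _)
      rw [← C_mul_X_pow_eq_monomial]
      simp only [gz, map_mul, map_pow, map_sub, map_ofNat, coe_mapRingHom, map_C, map_X]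
      ring
    · intro b
      refine gr_eq_zero fun k hk => ?_
      rw [mul_pow, mul_right_comm, mul_comm _ (X ^ 3), coe_mapRingHom, coeff_map, coeff_X_pow_mul',
        if_neg (by omega), map_zero, map_zero]
    · intro b
      have := hΦ (MvPolynomial.X 7 * (MvPolynomial.X 0 - MvPolynomial.X 1) - 1) b fun n hn r => by
        rw [map_sub, map_mul (x n).evB, map_sub, hX, hX, hX, map_one]
        erw [Ring.inverse_mul_cancel _ (hx.ok n hn).ud]
        simp
      rwa [map_sub C, map_mul C, map_sub C, map_one] at this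
  refine ⟨fun h => ?_, fun h => ?_, fun h => ?_, fun h d hd => ?_⟩
  · rw [← hv]
    refine r2.higgs1 fun b => ?_
    have := hΦ (MvPolynomial.X 0 - MvPolynomial.X 2) b fun n hn r => by
      rw [map_sub, hX, hX]; exact h n hn r
    rwa [map_sub C] at this
  · rw [← hv]
    refine r2.higgs2 fun b => ?_
    have := hΦ (MvPolynomial.X 1 - MvPolynomial.X 3) b fun n hn r => by
      rw [map_sub, hX, hX]; exact h n hn r
    rwa [map_sub C] at this
  · rw [low (by omega), if_neg (by omega)]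
  · subst h
    rw [low le_rfl, if_pos le_rfl, SL_apply, Nat.sub_self, Nat.antidiagonal_zero, sum_singleton,
      Lev.ev_C]
    have : Ring.inverse ((x 0).a1 - (x 0).a2) = d := by
      have h1 := Ring.mul_inverse_cancel _ (hx.ok 0 (by simp)).ud
      linear_combination d * h1 - Ring.inverse ((x 0).a1 - (x 0).a2) * hd
    simp only [map_mul, map_pow, map_sub, map_ofNat, hX, Lev.P, Lev.h, eval_mul, eval_sub, eval_X,
      eval_C, ← this]
    rfl

end family

end Crest.Agent.N265.Formal
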