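import Crest.Agent.N265.Formal.Res

/-!
# Row 265, formal layer: the INTERFACE with the geometry (helper3)

One family of fixed components `F n`, `n = (n₁, n₂)`, `n₁ + n₂ ≤ ν`; `R n` = ring of operators on
`F n` (localized); one fixed point `p` of the surface gives `x n : Lev (R n) K M`.
-/

set_option autoImplicit false

open Polynomial

namespace Crest.Agent.N265.Formal

universe u

/-- data on one fixed component for one point `p`:  `I_i|_p = A_i - B_i` (characteristic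
polynomials, torus weights included), `a_i = det I_i|_p`, framing weights `m₁, m₂`,
`l0 = 1/(m₁m₂)`; numeric functional `L` and surface-valued functional `Γ`. -/
structure Lev (R K M : Type*) [CommRing R] [AddCommGroup K] [AddCommGroup M] where
  a1 : R
  a2 : R
  m1 : R
  m2 : R
  l0 : R
  A1 : R[X]
  B1 : R[X]
  A2 : R[X]
  B2 : R[X]
  L : R →+ K
  Γ : R →+ M

variable {R R' K M : Type*} [CommRing R] [CommRing R'] [AddCommGroup K] [AddCommGroup M]

namespace Lev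

/-- exchange the two summands (the framing weights stay) -/
def swap (x : Lev R K M) : Lev R K M :=
  { x with a1 := x.a2, a2 := x.a1, A1 := x.A2, B1 := x.B2, A2 := x.A1, B2 := x.B1 }

structure Ok (J : ℕ) (x : Lev R K M) : Prop where
  c1 : Cls J x.a1 x.A1 x.B1
  c2 : Cls J x.a2 x.A2 x.B2
  u1 : IsUnit x.a1
  u2 : IsUnit x.a2
  ud : IsUnit (x.a1 - x.a2)

/-- the matter polynomial -/
noncomputable def P (x : Lev R K M) : R[X] := (X - C x.m1) * (X - C x.m2)
/-- the class of the rank two sheaf at the point -/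
noncomputable def c (x : Lev R K M) : R := tr x.A1 x.B1 + tr x.A2 x.B2
/-- its determinant -/
def h (x : Lev R K M) : R := x.a1 * x.a2

/-- two points: same determinant classes, same functionals -/
structure Same (x y : Lev R K M) : Prop where
  a1 : y.a1 = x.a1
  a2 : y.a2 = x.a2
  m1 : y.m1 = x.m1
  m2 : y.m2 = x.m2
  l0 : y.l0 = x.l0
  L : y.L = x.L
  Γ : y.Γ = x.Γ

end Lev

/-- The nested space `N = {I₁' ⊂ I₁, I₁/I₁' = ell ⊗ ℂ_p}` between the level `x` and the next level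
`y` (first summand changes); `v` = push-forward along the point `p`. -/
structure Nest (x : Lev R K M) (y : Lev R' K M) (v : K →+ M) {N : Type*} [CommRing N]
    (π : R →+* N) (π' : R' →+* N) (ell : N) (LN : N →+ K) (ΓN : N →+ M) : Prop where
  a1 : π x.a1 = π' y.a1
  a2 : π x.a2 = π' y.a2
  m1 : π x.m1 = π' y.m1
  m2 : π x.m2 = π' y.m2
  l0 : π x.l0 = π' y.l0
  p1 : x.A1.map π * y.B1.map π' = y.A1.map π' * x.B1.map π
  p2 : x.A2.map π * y.B2.map π' = y.A2.map π' * x.B2.map π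
  root : x.A1.eval₂ π ell = 0
  L1 : ∀ g : R'[X], LN (g.eval₂ π' ell * ell * π x.a1) = y.L (res y.B1 (g * y.A1))
  Γ1 : ∀ g : R'[X], ΓN (g.eval₂ π' ell * ell * π x.a1) = y.Γ (res y.B1 (g * y.A1))
  L2 : ∀ g : R[X], LN (g.eval₂ π ell * ell * x.A2.eval₂ π ell ^ 2) =
    -x.L (x.a2 * x.l0 * res x.A1 (g * x.P * x.B1 * x.B2 ^ 2))
  Γ2 : ∀ g : R[X], ΓN (g.eval₂ π ell * ell * x.A2.eval₂ π ell ^ 2) =
    -x.Γ (x.a2 * x.l0 * res x.A1 (g * x.P * x.B1 * x.B2 ^ 2))
      + v (x.L (x.a2 * x.l0 * res x.A1 (X * g * x.P * x.B1 * x.B2 ^ 2)))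

/-- existence of the nested space -/
def HasNest {R R' : Type u} [CommRing R] [CommRing R'] (x : Lev R K M) (y : Lev R' K M)
    (v : K →+ M) : Prop :=
  ∃ (N : Type u) (_ : CommRing N) (π : R →+* N) (π' : R' →+* N) (ell : N) (LN : N →+ K)
    (ΓN : N →+ M), Nest x y v π π' ell LN ΓN

/-- all data of one family for one point -/
structure Hecke (ν J : ℕ) {R : ℕ × ℕ → Type u} [∀ n, CommRing (R n)] (x : ∀ n, Lev (R n) K M)
    (v : K →+ M) : Prop where
  ok : ∀ n : ℕ × ℕ, n.1 + n.2 ≤ ν → (x n).Ok J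
  bot1 : ∀ k ≤ ν, (x (0, k)).A1 = (X - C (x (0, k)).a1) * (x (0, k)).B1
  bot2 : ∀ k ≤ ν, (x (k, 0)).A2 = (X - C (x (k, 0)).a2) * (x (k, 0)).B2
  up1 : ∀ i j, i + j < ν → HasNest (x (i, j)) (x (i + 1, j)) v
  up2 : ∀ i j, i + j < ν → HasNest (x (i, j)).swap (x (i, j + 1)).swap v

/-- antiderivative in `c` of `15 ×` the coefficient of `c₁` in `LL` -/
def Gins (m1 m2 h l c : R) : R :=
  6 * c ^ 5 + 10 * (2 * (8 * (l * h) - 4 * (h + l * m1 * m2)) - 24 * (l * h)) * c ^ 3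
    + 360 * (l * h) * (m1 + m2) * c ^ 2 + 30 * ((8 * (l * h) - 4 * (h + l * m1 * m2)) ^ 2
      - 12 * (l * h) * (4 * (l * h) - 4 * (h + l * m1 * m2) + 4 * m1 * m2)) * c
/-- the part of `15 LL` without `c₁` -/
def Fins (m1 m2 h l c : R) : R := 15 * LL m1 m2 h l c 0

/-- the surface-valued insertion, coefficient of `Λ^k` -/
noncomputable def Gk (m1 m2 l0 h c : R) (k : ℕ) : R :=
  (Gins (C m1) (C m2) (C h) (C l0 * X) (C c)).coeff k
/-- the numeric insertion, coefficient of `Λ^k` -/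
noncomputable def Fk (m1 m2 l0 h c : R) (k : ℕ) : R :=
  (Fins (C m1) (C m2) (C h) (C l0 * X) (C c)).coeff k

theorem Gins_map (f : R →+* R') (m1 m2 h l c : R) :
    f (Gins m1 m2 h l c) = Gins (f m1) (f m2) (f h) (f l) (f c) := by
  simp [Gins, map_ofNat]

theorem Fins_map (f : R →+* R') (m1 m2 h l c : R) :
    f (Fins m1 m2 h l c) = Fins (f m1) (f m2) (f h) (f l) (f c) := by
  rw [Fins, Fins, map_mul, LL_map, map_zero, map_ofNat]

theorem Gk_map (f : R →+* R') (m1 m2 l0 h c : R) (k : ℕ) :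
    f (Gk m1 m2 l0 h c k) = Gk (f m1) (f m2) (f l0) (f h) (f c) k := by
  rw [Gk, Gk, ← coeff_map, ← coe_mapRingHom, Gins_map]; simp

theorem Fk_map (f : R →+* R') (m1 m2 l0 h c : R) (k : ℕ) :
    f (Fk m1 m2 l0 h c k) = Fk (f m1) (f m2) (f l0) (f h) (f c) k := by
  rw [Fk, Fk, ← coeff_map, ← coe_mapRingHom, Fins_map]; simp

/-- contribution of one fixed component to the identity on `Q_(top - k)` -/
noncomputable def term (x y : Lev R K M) (v v' : K →+ M) (k : ℕ) : M :=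
  x.Γ (Gk x.m1 x.m2 x.l0 x.h x.c k) - y.Γ (Gk y.m1 y.m2 y.l0 y.h y.c k)
    + (v - v') (x.L (Fk x.m1 x.m2 x.l0 x.h x.c k))

/-- contribution of the family -/
noncomputable def total (ν : ℕ) {R : ℕ × ℕ → Type u} [∀ n, CommRing (R n)]
    (x y : ∀ n, Lev (R n) K M) (v v' : K →+ M) : M :=
  ∑ k ∈ Finset.range 4, if k ≤ ν then
    ∑ n ∈ Finset.HasAntidiagonal.antidiagonal (ν - k), term (x n) (y n) v v' k else 0

/-- THE OUTPUT of the formal layer (proved in `Formal/Hecke.lean` as `family`). -/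
def FamilyStmt (K M : Type*) [AddCommGroup K] [AddCommGroup M] : Prop :=
  ∀ (ν J : ℕ) (R : ℕ × ℕ → Type u) [∀ n, CommRing (R n)] (x y : ∀ n, Lev (R n) K M)
    (v v' : K →+ M), Hecke ν J x v → Hecke ν J y v' →
    (∀ n : ℕ × ℕ, n.1 + n.2 ≤ ν → (x n).Same (y n)) →
    ((∀ n : ℕ × ℕ, n.1 + n.2 ≤ ν → ∀ r, (x n).L (((x n).a1 - (x n).m1) * r) = 0) →
      total ν x y v v' = 0) ∧
    ((∀ n : ℕ × ℕ, n.1 + n.2 ≤ ν → ∀ r, (x n).L (((x n).a2 - (x n).m2) * r) = 0) →
      total ν x y v v' = 0) ∧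
    (ν ≤ 1 → total ν x y v v' = 0) ∧
    (ν = 2 → ∀ d, d * ((x 0).a1 - (x 0).a2) = 1 → total ν x y v v' = (v - v') ((x 0).L
      (1800 * ((x 0).l0 * (x 0).h * d) ^ 2 * (x 0).P.eval (x 0).a1 * (x 0).P.eval (x 0).a2)))

end Crest.Agent.N265.Formal
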