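import Crest.Agent.N265.Formal.Fac

/-!
# Row 265, formal layer, part 2: the killer polynomial `LL` (helper3)

Over dual numbers, with `Q = (z - m₁)(z - m₂)(1 - ε z)` and `c = c₀ + ε c₁` the trace of the
rank two class: `LL(c₀, c₁) = 0` if `a₁ = m₁`, and `(a₁-a₂)² LL = 120 La² P(a₁) P(a₂)` if `l³ = 0`.
-/

set_option autoImplicit false

open Polynomial TrivSqZeroExt DualNumber

namespace Crest.Agent.N265.Formal

variable {A : Type*} [CommRing A]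

/-- `Y = U/(X-a)^J = X - cc + O(1/X)` -/
def cc (J : ℕ) (a : A) (U : A[X]) : A := -U.coeff J - J * a

theorem cc_map {A' : Type*} [CommRing A'] (f : A →+* A') (J : ℕ) (a : A) (U : A[X]) :
    cc J (f a) (U.map f) = f (cc J a U) := by simp [cc]

theorem coeff_pow_top (a : A) (n : ℕ) : ((X - C a) ^ n).coeff n = 1 := by
  rw [sub_eq_add_neg, ← map_neg, coeff_X_add_C_pow]; simp

theorem coeff_pow_next (a : A) (n : ℕ) : ((X - C a) ^ (n + 1)).coeff n = -(n + 1) * a := by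
  rw [sub_eq_add_neg, ← map_neg, coeff_X_add_C_pow]; simp; ring

theorem natDegree_pow_le' (a : A) (n : ℕ) : ((X - C a) ^ n).natDegree ≤ n :=
  natDegree_pow_le.trans (by simpa using Nat.mul_le_mul_left n (natDegree_X_sub_C_le a))

theorem Lead.decomp {j : ℕ} {U : A[X]} (h : Lead (j + 1) U) (a : A) :
    ∃ R : A[X], R.natDegree ≤ j ∧ U = (X - C a) ^ (j + 1) * (X - C (cc (j + 1) a U)) + R := by
  refine ⟨U - (X - C a) ^ (j + 1) * (X - C (cc (j + 1) a U)), ?_, by ring⟩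
  rw [natDegree_le_iff_coeff_eq_zero]
  intro k hk
  obtain ⟨k, rfl⟩ : ∃ k', k = k' + 1 := ⟨k - 1, by omega⟩
  have hz : ∀ i, j + 1 < i → ((X - C a) ^ (j + 1)).coeff i = 0 := fun i hi =>
    coeff_eq_zero_of_natDegree_lt ((natDegree_pow_le' a _).trans_lt hi)
  rw [coeff_sub, coeff_mul_X_sub_C]
  rcases Nat.lt_trichotomy k (j + 1) with h1 | rfl | h1
  · obtain rfl : k = j := by omega
    rw [coeff_pow_next, coeff_pow_top, cc]; push_cast; ring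
  · rw [h.top, coeff_pow_top, hz _ (by omega)]; ring
  · rw [h.hi _ (by omega), hz _ h1, hz _ (by omega)]; ring

theorem Fac.decompV {j : ℕ} {a : A} {U V : A[X]} (h : Fac (j + 2) a U V) :
    ∃ R : A[X], R.natDegree ≤ j ∧ V = (X - C a) ^ (j + 1) + R := by
  refine ⟨V - (X - C a) ^ (j + 1), ?_, by ring⟩
  nontriviality A
  have hm : ∀ n, ((X - C a) ^ n : A[X]).Monic := fun n => (monic_X_sub_C a).pow _
  have hd : ∀ n, ((X - C a) ^ n : A[X]).natDegree = n := fun n => by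
    rw [(monic_X_sub_C a).natDegree_pow, natDegree_X_sub_C, mul_one]
  have hV : V.Monic := h.lead.monic.of_mul_monic_left (h.mul ▸ hm _)
  have hU : U.natDegree = j + 3 :=
    le_antisymm h.lead.natDegree_le (le_natDegree_of_ne_zero (by rw [h.lead.top]; exact one_ne_zero))
  have hVd : V.natDegree = j + 1 := by
    have := h.lead.monic.natDegree_mul hV
    rw [h.mul, hd, hU] at this; omega
  rw [natDegree_le_iff_coeff_eq_zero]
  intro k hk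
  rcases Nat.lt_or_ge (j + 1) k with h1 | h1
  · rw [coeff_sub, coeff_eq_zero_of_natDegree_lt (hVd ▸ h1),
      coeff_eq_zero_of_natDegree_lt ((hd _).symm ▸ h1), sub_zero]
  · obtain rfl : k = j + 1 := by omega
    rw [coeff_sub, coeff_pow_top, ← hVd, hV.coeff_natDegree, sub_self]

theorem Fac.evV {j : ℕ} {a : A} {U V : A[X]} (h : Fac (j + 1) a U V) (ha : IsUnit a) :
    V.eval 0 = (-a) ^ j := by
  have := congrArg (eval 0) h.mul
  simp only [eval_mul, h.ev0, eval_pow, eval_sub, eval_X, eval_C, zero_sub] at this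
  refine (ha.neg.pow (j + 1 + 1)).mul_left_cancel ?_
  rw [this, ← pow_add]; congr 1; omega

theorem zero_of_dvd {a : A} (ha : IsUnit a) {k : ℕ} {p : A[X]} (hdeg : p.natDegree ≤ k)
    (hd : (X - C a) ^ k ∣ p) (h0 : p.eval 0 = 0) : p = 0 := by
  nontriviality A
  obtain ⟨q, rfl⟩ := hd
  by_cases hq0 : q = 0
  · rw [hq0, mul_zero]
  have hq1 : q.natDegree = 0 := by
    rw [((monic_X_sub_C a).pow _).natDegree_mul' hq0, (monic_X_sub_C a).natDegree_pow,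
      natDegree_X_sub_C] at hdeg
    omega
  rw [eq_C_of_natDegree_eq_zero hq1] at h0 hq0
  simp only [eval_mul, eval_pow, eval_sub, eval_X, eval_C, zero_sub] at h0
  have := ((ha.neg.pow k).mul_right_eq_zero).1 h0
  exact absurd (by rw [this, map_zero]) hq0

/-- the killer; `h = a₁a₂`, `La = l h` -/
def LL (m1 m2 h l c0 c1 : A) : A :=
  ((8 * (l * h) + (c0 ^ 2 - 4 * (h + l * m1 * m2))) ^ 2 - 12 * (l * h) *
      (4 * (l * h) + (c0 ^ 2 - 4 * (h + l * m1 * m2)) + ((c0 - m1 - m2) ^ 2 - (m1 - m2) ^ 2))) *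
      (2 * c1) +
    l * h * ((8 * (l * h) + (c0 ^ 2 - 4 * (h + l * m1 * m2))) *
      (4 * (l * h) + (c0 ^ 2 - 4 * (h + l * m1 * m2)) + ((c0 - m1 - m2) ^ 2 - (m1 - m2) ^ 2))
      - 36 * (l * h) * (c0 - m1 - m2) ^ 2)

theorem LL_comm (m1 m2 h l c0 c1 : A) : LL m1 m2 h l c0 c1 = LL m2 m1 h l c0 c1 := by
  unfold LL; ring

theorem LL_map {A' : Type*} [CommRing A'] (f : A →+* A') (m1 m2 h l c0 c1 : A) :
    f (LL m1 m2 h l c0 c1) = LL (f m1) (f m2) (f h) (f l) (f c0) (f c1) := by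
  simp [LL, map_ofNat]

/-! ### second order -/

theorem QQ.cc_ord2 {J : ℕ} {a1 a2 l q0 q1 q2 q3 : A} {Q U1 V1 U2 V2 : A[X]}
    (h : QQ (J + 3) a1 a2 (l * a1 * a2) Q U1 V1 U2 V2) (hl : l ^ 3 = 0)
    (hQ : Q = C q0 + C q1 * (X - C a1) + C q2 * (X - C a1) ^ 2 + C q3 * (X - C a1) ^ 3) :
    (a1 - a2) ^ 6 * cc (J + 3) a1 U1 = (a1 - a2) ^ 6 * a1 + l * (a1 - a2) ^ 4 * a2 * q0 +
      l ^ 2 * (a1 * a2 ^ 2 * q0 * (q2 * (a1 - a2) ^ 2 - 2 * q1 * (a1 - a2) + 3 * q0)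
        + 2 * a1 ^ 2 * a2 * q0 * Q.eval a2) := by
  obtain ⟨e, he⟩ := h.ud.exists_right_inv
  have hk : ∀ (k : ℕ) (x : A), (a1 - a2) ^ k * (e ^ k * x) = x := fun k x => by
    rw [← mul_assoc, ← mul_pow, he, one_pow, one_mul]
  obtain ⟨b1, h1⟩ : ∃ b1, (a1 - a2) ^ 2 * b1 = -a2 * q0 := ⟨_, hk _ _⟩
  obtain ⟨b2, h2⟩ : ∃ b2, (a1 - a2) ^ 2 * b2 = -a1 * Q.eval a2 := ⟨_, hk _ _⟩
  obtain ⟨r0, hr0⟩ : ∃ r0, (a1 - a2) ^ 2 * r0 = a1 * a2 * b1 * q0 := ⟨_, hk _ _⟩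
  obtain ⟨r1, hr1⟩ : ∃ r1, (a1 - a2) ^ 3 * r1 = a1 * a2 * b1 * (q1 * (a1 - a2) - 2 * q0) :=
    ⟨_, hk _ _⟩
  obtain ⟨r2, hr2⟩ : ∃ r2, (a1 - a2) ^ 4 * r2 =
      a1 * a2 * b1 * (q2 * (a1 - a2) ^ 2 - 2 * q1 * (a1 - a2) + 3 * q0)
      + a1 * a2 * q0 * b2 - b1 * b2 * a1 * (a1 - a2) ^ 2 := ⟨_, hk _ _⟩
  have hU := h.ord2_exact hl hQ h1 h2 hr0 hr1 hr2
  have hc : cc (J + 3) a1 U1 = a1 - l * b1 - l ^ 2 * r2 := by
    rw [cc, hU, mul_add, ← pow_add, coeff_add, coeff_pow_next a1 (J + 3),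
      coeff_mul_add_eq_of_natDegree_le (natDegree_pow_le' a1 J) (by compute_degree), coeff_pow_top]
    have : C l * C b1 * (X - C a1) ^ 2 * X +
        C l ^ 2 * X * (C r0 + C r1 * (X - C a1) + C r2 * (X - C a1) ^ 2) =
        C (l * b1 + l ^ 2 * r2) * X ^ 3 + C (l ^ 2 * r1 - 2 * a1 * (l * b1 + l ^ 2 * r2)) * X ^ 2
        + C (l ^ 2 * (r0 - r1 * a1) + a1 ^ 2 * (l * b1 + l ^ 2 * r2)) * X := by
      simp only [map_add, map_mul, map_pow, map_sub, map_ofNat]; ring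
    rw [this]
    simp only [coeff_add, coeff_C_mul, coeff_X_pow, coeff_X]
    push_cast; simp; ring
  rw [hc]
  linear_combination (-l * (a1 - a2) ^ 4 - l ^ 2 * a1 * a2 *
      (q2 * (a1 - a2) ^ 2 - 2 * q1 * (a1 - a2) + 3 * q0) + l ^ 2 * a1 * (a1 - a2) ^ 2 * b2) * h1
    - l ^ 2 * (a1 - a2) ^ 2 * hr2 - 2 * l ^ 2 * a1 * a2 * q0 * h2

theorem LL_trunc (l h W0 W1 W2 N0 N1 N2 S0 S1 v1 v2 : A) (hl : l ^ 3 = 0) :
    ((8 * (l * h) + (W0 + l * W1 + l ^ 2 * W2)) ^ 2 - 12 * (l * h) *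
      (4 * (l * h) + (W0 + l * W1 + l ^ 2 * W2) + (N0 + l * N1 + l ^ 2 * N2))) *
      (2 * (l * v1 + l ^ 2 * v2)) +
    l * h * ((8 * (l * h) + (W0 + l * W1 + l ^ 2 * W2)) *
      (4 * (l * h) + (W0 + l * W1 + l ^ 2 * W2) + (N0 + l * N1 + l ^ 2 * N2))
      - 36 * (l * h) * (S0 + l * S1) ^ 2) =
    l * (2 * W0 ^ 2 * v1 + h * W0 * N0 + h * W0 ^ 2) +
    l ^ 2 * (4 * W0 * W1 * v1 + 2 * W0 ^ 2 * v2 - 24 * h * N0 * v1 + h * W1 * N0 + 8 * h * W0 * v1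
      + h * W0 * N1 + 2 * h * W0 * W1 - 36 * h ^ 2 * S0 ^ 2 + 8 * h ^ 2 * N0 + 12 * h ^ 2 * W0) := by
  linear_combination (
      2*W1^2*v1 + 4*W0*W2*v1 + 4*W0*W1*v2 - 24*h*N1*v1 - 24*h*N0*v2 + h*W2*N0 + 8*h*W1*v1
      + h*W1*N1 + h*W1^2 + 8*h*W0*v2 + h*W0*N2 + 2*h*W0*W2 + 32*h^2*v1 - 72*h^2*S0*S1
      + 8*h^2*N1 + 12*h^2*W1 + 32*h^3 + 4*l*W1*W2*v1 + 2*l*W1^2*v2 + 4*l*W0*W2*v2
      - 24*l*h*N2*v1 - 24*l*h*N1*v2 + 8*l*h*W2*v1 + l*h*W2*N1 + 8*l*h*W1*v2 + l*h*W1*N2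
      + 2*l*h*W1*W2 + 32*l*h^2*v2 - 36*l*h^2*S1^2 + 8*l*h^2*N2 + 12*l*h^2*W2 + 2*l^2*W2^2*v1
      + 4*l^2*W1*W2*v2 - 24*l^2*h*N2*v2 + 8*l^2*h*W2*v2 + l^2*h*W2*N2 + l^2*h*W2^2
      + 2*l^3*W2^2*v2) * hl

/-- the deformed matter polynomial -/
noncomputable def Qd (m1 m2 : A) : (DualNumber A)[X] :=
  (X - C (inl m1)) * (X - C (inl m2)) * (1 - C ε * X)

theorem Qd_comm (m1 m2 : A) : Qd m1 m2 = Qd m2 m1 := by unfold Qd; ring

theorem Qd_taylor (m1 m2 : A) (a : DualNumber A) : Qd m1 m2 =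
    C ((a - inl m1) * (a - inl m2) * (1 - ε * a))
    + C ((2 * a - inl m1 - inl m2) * (1 - ε * a) - ε * ((a - inl m1) * (a - inl m2))) * (X - C a)
    + C ((1 - ε * a) - ε * (2 * a - inl m1 - inl m2)) * (X - C a) ^ 2
    + C (-ε) * (X - C a) ^ 3 := by
  simp only [Qd, map_mul, map_sub, map_neg, map_one, map_ofNat]; ring

theorem fst_two : (2 : DualNumber A).fst = 2 := map_ofNat (fstHom ℤ A A) 2
theorem fst_three : (3 : DualNumber A).fst = 3 := map_ofNat (fstHom ℤ A A) 3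
theorem snd_two : (2 : DualNumber A).snd = 0 := by rw [← one_add_one_eq_two, snd_add]; simp
theorem snd_three : (3 : DualNumber A).snd = 0 := by
  rw [show (3 : DualNumber A) = 2 + 1 by norm_num, snd_add, snd_two]; simp

set_option maxHeartbeats 1000000 in
theorem LL_ord2 {J : ℕ} {a1 a2 l m1 m2 : A} {U1 V1 U2 V2 : (DualNumber A)[X]}
    (h : QQ (J + 3) (inl a1) (inl a2) (inl l * inl a1 * inl a2) (Qd m1 m2) U1 V1 U2 V2)
    (hl : l ^ 3 = 0) :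
    (a1 - a2) ^ 2 * LL m1 m2 (a1 * a2) l
      (cc (J + 3) (inl a1) U1 + cc (J + 3) (inl a2) U2).fst
      (cc (J + 3) (inl a1) U1 + cc (J + 3) (inl a2) U2).snd =
      120 * (l * (a1 * a2)) ^ 2 * ((a1 - m1) * (a1 - m2)) * ((a2 - m1) * (a2 - m2)) := by
  have hl' : (inl l : DualNumber A) ^ 3 = 0 := by rw [inl_pow, hl, inl_zero]
  have e1 := h.cc_ord2 hl' (Qd_taylor m1 m2 _)
  have hs := h.swap
  rw [mul_right_comm] at hs
  have e2 := hs.cc_ord2 hl' (Qd_taylor m1 m2 _)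
  have hd : IsUnit (a1 - a2) := by simpa using h.ud.map (fstHom ℤ A A)
  generalize cc (J + 3) (inl a1) U1 = x1 at *
  generalize cc (J + 3) (inl a2) U2 = x2 at *
  have f1 := congrArg fst e1
  have f2 := congrArg fst e2
  have s1 := congrArg snd e1
  have s2 := congrArg snd e2
  simp only [Qd, eval_mul, eval_sub, eval_X, eval_C, eval_one, pow_succ, pow_zero, one_mul,
    fst_mul, fst_add, fst_sub, fst_inl, fst_eps, fst_one, DualNumber.snd_mul, snd_add, snd_sub,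
    snd_inl, snd_eps, snd_one, fst_two, fst_three, snd_two, snd_three] at f1 f2 s1 s2
  obtain ⟨e, he⟩ := hd.exists_right_inv
  have hk : ∀ (k : ℕ) (x : A), (a1 - a2) ^ k * (e ^ k * x) = x := fun k x => by
    rw [← mul_assoc, ← mul_pow, he, one_pow, one_mul]
  obtain ⟨u, hu⟩ : ∃ u, (a1 - a2) ^ 2 * u =
    a2 * ((a1 - m1) * (a1 - m2)) + a1 * ((a2 - m1) * (a2 - m2)) := ⟨_, hk _ _⟩
  obtain ⟨v1, hv1⟩ : ∃ v1, (a1 - a2) ^ 2 * v1 =
    -(a1 * a2) * ((a1 - m1) * (a1 - m2) + (a2 - m1) * (a2 - m2)) := ⟨_, hk _ _⟩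
  obtain ⟨u2, hu2⟩ : ∃ u2, (a1 - a2) ^ 6 * u2 =
      5*a1*a2^2*m1^2*m2^2 - 4*a1*a2^3*m1*m2^2 - 4*a1*a2^3*m1^2*m2 + 3*a1*a2^4*m1*m2
      + 5*a1^2*a2*m1^2*m2^2 - 12*a1^2*a2^2*m1*m2^2 - 12*a1^2*a2^2*m1^2*m2 + 5*a1^2*a2^3*m2^2
      + 17*a1^2*a2^3*m1*m2 + 5*a1^2*a2^3*m1^2 - 4*a1^2*a2^4*m2 - 4*a1^2*a2^4*m1
      - 4*a1^3*a2*m1*m2^2 - 4*a1^3*a2*m1^2*m2 + 5*a1^3*a2^2*m2^2 + 17*a1^3*a2^2*m1*m2
      + 5*a1^3*a2^2*m1^2 - 12*a1^3*a2^3*m2 - 12*a1^3*a2^3*m1 + 5*a1^3*a2^4 + 3*a1^4*a2*m1*m2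
      - 4*a1^4*a2^2*m2 - 4*a1^4*a2^2*m1 + 5*a1^4*a2^3 := ⟨_, hk _ _⟩
  obtain ⟨v2, hv2⟩ : ∃ v2, (a1 - a2) ^ 6 * v2 =
      -4*a1*a2^3*m1^2*m2^2 + 3*a1*a2^4*m1*m2^2 + 3*a1*a2^4*m1^2*m2 - 2*a1*a2^5*m1*m2
      - 12*a1^2*a2^2*m1^2*m2^2 + 17*a1^2*a2^3*m1*m2^2 + 17*a1^2*a2^3*m1^2*m2 - 4*a1^2*a2^4*m2^2
      - 20*a1^2*a2^4*m1*m2 - 4*a1^2*a2^4*m1^2 + 3*a1^2*a2^5*m2 + 3*a1^2*a2^5*m1
      - 4*a1^3*a2*m1^2*m2^2 + 17*a1^3*a2^2*m1*m2^2 + 17*a1^3*a2^2*m1^2*m2 - 12*a1^3*a2^3*m2^2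
      - 36*a1^3*a2^3*m1*m2 - 12*a1^3*a2^3*m1^2 + 17*a1^3*a2^4*m2 + 17*a1^3*a2^4*m1
      - 4*a1^3*a2^5 + 3*a1^4*a2*m1*m2^2 + 3*a1^4*a2*m1^2*m2 - 4*a1^4*a2^2*m2^2 - 20*a1^4*a2^2*m1*m2
      - 4*a1^4*a2^2*m1^2 + 17*a1^4*a2^3*m2 + 17*a1^4*a2^3*m1 - 12*a1^4*a2^4 - 2*a1^5*a2*m1*m2
      + 3*a1^5*a2^2*m2 + 3*a1^5*a2^2*m1 - 4*a1^5*a2^3 := ⟨_, hk _ _⟩
  have hd6 : IsUnit ((a1 - a2) ^ 6) := (IsUnit.of_mul_eq_one _ he).pow 6
  have hc0 : (x1 + x2).fst = a1 + a2 + l * u + l ^ 2 * u2 := by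
    refine hd6.mul_left_cancel ?_
    rw [fst_add]
    linear_combination f1 + f2 - l * (a1 - a2) ^ 4 * hu - l ^ 2 * hu2
  have hc1 : (x1 + x2).snd = l * v1 + l ^ 2 * v2 := by
    refine hd6.mul_left_cancel ?_
    rw [snd_add]
    linear_combination s1 + s2 - l * (a1 - a2) ^ 4 * hv1 - l ^ 2 * hv2
  have key := LL_trunc l (a1 * a2) ((a1 - a2) ^ 2) (2 * (a1 + a2) * u - 4 * m1 * m2)
    (u ^ 2 + 2 * (a1 + a2 + l * u) * u2 + l ^ 2 * u2 ^ 2)
    ((a1 + a2 - m1 - m2) ^ 2 - (m1 - m2) ^ 2) (2 * (a1 + a2 - m1 - m2) * u)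
    (u ^ 2 + 2 * (a1 + a2 - m1 - m2 + l * u) * u2 + l ^ 2 * u2 ^ 2) (a1 + a2 - m1 - m2)
    (u + l * u2) v1 v2 hl
  have hw : (x1 + x2).fst ^ 2 - 4 * (a1 * a2 + l * m1 * m2) = (a1 - a2) ^ 2 +
      l * (2 * (a1 + a2) * u - 4 * m1 * m2) +
      l ^ 2 * (u ^ 2 + 2 * (a1 + a2 + l * u) * u2 + l ^ 2 * u2 ^ 2) := by rw [hc0]; ring
  have hn : ((x1 + x2).fst - m1 - m2) ^ 2 - (m1 - m2) ^ 2 =
      (a1 + a2 - m1 - m2) ^ 2 - (m1 - m2) ^ 2 + l * (2 * (a1 + a2 - m1 - m2) * u) + l ^ 2 *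
      (u ^ 2 + 2 * (a1 + a2 - m1 - m2 + l * u) * u2 + l ^ 2 * u2 ^ 2) := by rw [hc0]; ring
  have hs2 : (x1 + x2).fst - m1 - m2 = a1 + a2 - m1 - m2 + l * (u + l * u2) := by rw [hc0]; ring
  rw [LL, hw, hn, hs2, hc1, key]
  linear_combination l * 2 * (a1 - a2) ^ 4 * hv1 + l ^ 2 * 2 * hv2 + l ^ 2 *
    (4 * (a1 - a2) ^ 2 * (2 * (a1 + a2) * u - 4 * m1 * m2) - 24 * (a1 * a2) *
      ((a1 + a2 - m1 - m2) ^ 2 - (m1 - m2) ^ 2) + 8 * (a1 * a2) * (a1 - a2) ^ 2) * hv1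
    + l ^ 2 * (-8 * (a1 + a2) * (a1 * a2) * ((a1 - m1) * (a1 - m2) + (a2 - m1) * (a2 - m2))
      + 2 * (a1 + a2) * (a1 * a2) * ((a1 + a2 - m1 - m2) ^ 2 - (m1 - m2) ^ 2)
      + 2 * (a1 * a2) * (a1 - a2) ^ 2 * (a1 + a2 - m1 - m2)
      + 4 * (a1 * a2) * (a1 - a2) ^ 2 * (a1 + a2)) * hu

/-! ### the Higgs locus `a₁ = m₁` -/

theorem QQ.higgs_step {J : ℕ} {a1 a2 La : A} {Q' U1 V1 U2 V2 : A[X]}
    (h : QQ (J + 1) a1 a2 La ((X - C a1) * Q') U1 V1 U2 V2)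
    (hV : C La * V1 = C La * (X - C a1) ^ J) :
    U1 = (X - C a1) ^ (J + 2) ∧ V1 = (X - C a1) ^ J := by
  have hU : U1 = (X - C a1) ^ (J + 2) := by
    refine h.eq_of_dvd ?_ (by simp) ⟨(X - C a1) * U2 + C La * Q' * V2, ?_⟩
    · simpa using lead_pow_mul 0 (J + 1) a1 0 (by simp) (J + 1) (by simp)
    · linear_combination (X - C a1) * Q' * V2 * hV
  exact ⟨hU, h.f1.uniqV (by rw [hU, ← pow_add]; congr 1; omega)⟩

theorem QQ.higgs {J : ℕ} {a1 a2 La : A} {Q' U1 V1 U2 V2 : A[X]}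
    (h : QQ (J + 1) a1 a2 La ((X - C a1) * Q') U1 V1 U2 V2) (hn : IsNilpotent La) :
    U1 = (X - C a1) ^ (J + 2) ∧ V1 = (X - C a1) ^ J := by
  have key : ∀ k : ℕ, ∃ R, V1 = (X - C a1) ^ J + C (La ^ k) * R := by
    intro k
    induction k with
    | zero => exact ⟨V1 - (X - C a1) ^ J, by simp⟩
    | succ k ih =>
      obtain ⟨R, hR⟩ := ih
      set f := Ideal.Quotient.mk (Ideal.span {La ^ (k + 1)})
      have h' := h.map f
      rw [Polynomial.map_mul, Polynomial.map_sub, map_X, map_C] at h'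
      have h0 : C (f La) * C (f La) ^ k = 0 := by
        rw [← pow_succ', ← map_pow, ← map_pow, mk_self, map_zero]
      refine exists_of_map_eq _ ?_
      have := (h'.higgs_step (by rw [hR]; simp [mul_add, ← mul_assoc, h0])).2
      simpa using this
  obtain ⟨k, hk⟩ := hn
  obtain ⟨R, hR⟩ := key k
  exact h.higgs_step (by rw [hR, hk]; simp)

/-- on the Higgs locus the qq-equation is an identity of polynomials -/
theorem QQ.higgs_eq {J : ℕ} {a1 a2 l m2 e : A} {U1 V1 U2 V2 : A[X]}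
    (h : QQ (J + 2) a1 a2 (l * a1 * a2) ((X - C a1) * ((X - C m2) * (1 - C e * X))) U1 V1 U2 V2)
    (hn : IsNilpotent l) :
    (X - C a1) * U2 + C (l * a1 * a2) * ((X - C m2) * (1 - C e * X)) * V2 = (X - C a2) ^ (J + 2) *
      (X ^ 2 - C (cc (J + 2) a1 U1 + cc (J + 2) a2 U2 + l * a1 * a2 * e) * X
        + C (a1 * a2 + l * a1 * m2)) := by
  obtain ⟨hU, hV⟩ := h.higgs ((Commute.all _ _).isNilpotent_mul_right
    ((Commute.all _ _).isNilpotent_mul_right hn))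
  have hc : cc (J + 2) a1 U1 = a1 := by
    rw [cc, hU, coeff_pow_next a1 (J + 2)]; push_cast; ring
  rw [hc, ← sub_eq_zero]
  obtain ⟨R2, hR2, hU2⟩ := h.f2.lead.decomp a2
  obtain ⟨R3, hR3, hV2⟩ := h.f2.decompV
  refine zero_of_dvd h.u2 (k := J + 2) ?_ (dvd_sub ?_ (dvd_mul_right _ _)) ?_
  · generalize cc (J + 2) a2 U2 = c2 at *
    have : (X - C a1) * U2 + C (l * a1 * a2) * ((X - C m2) * (1 - C e * X)) * V2 -
        (X - C a2) ^ (J + 2) * (X ^ 2 - C (a1 + c2 + l * a1 * a2 * e) * X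
        + C (a1 * a2 + l * a1 * m2)) = (X - C a2) ^ (J + 1) *
          (C (a1 * c2 - a1 * a2 - l * a1 * m2 + l * a1 * a2 * (1 + m2 * e - a2 * e)) * X
           + C (-(a1 * c2 - a1 * a2 - l * a1 * m2) * a2 - l * a1 * a2 * m2)) + (X - C a1) * R2
          + C (l * a1 * a2) * ((X - C m2) * (1 - C e * X)) * R3 := by
      rw [hU2, hV2]
      simp only [map_add, map_mul, map_sub, map_neg, map_one]
      ring
    rw [this]
    have h1 := natDegree_pow_le' a2 (J + 1)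
    refine natDegree_add_le_of_degree_le (natDegree_add_le_of_degree_le
      (natDegree_mul_le_of_le (n := 1) h1 (by compute_degree)) ?_) ?_
    · exact (natDegree_mul_le_of_le (natDegree_X_sub_C_le a1) hR2).trans (by omega)
    · refine (natDegree_mul_le_of_le (m := 2) (by compute_degree) hR3).trans (by omega)
  · have hcop : IsCoprime ((X - C a2) ^ (J + 2)) ((X - C a1) ^ (J + 2)) :=
      (coprime_lin h.swap.ud).pow
    refine hcop.dvd_of_dvd_mul_left ?_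
    convert h.d2 using 1
    rw [hU, hV]; ring
  · simp only [eval_sub, eval_add, eval_mul, eval_pow, eval_X, eval_C, eval_one, h.f2.ev0,
      h.f2.evV h.u2]
    ring

/-- tangent equation -/
theorem tangent {u0 u1 v0 v1 D0 D1 a0 a1 b0 b1 t0 t1 : A} (hD : IsUnit D0)
    (h0 : u0 * v0 = D0 ^ 2) (h1 : u0 * v1 + u1 * v0 = 2 * D0 * D1)
    (g0 : a0 * u0 + b0 * v0 = D0 * t0)
    (g1 : a0 * u1 + a1 * u0 + b0 * v1 + b1 * v0 = D0 * t1 + D1 * t0) (G : a0 * u0 = b0 * v0) :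
    a1 * u0 + b1 * v0 = D0 * t1 := by
  have hv : IsUnit v0 := isUnit_of_mul_isUnit_right (h0 ▸ hD.pow 2)
  refine (hv.mul hD).mul_left_cancel ?_
  linear_combination v0 * D0 * g1 - D0 * a0 * h1 - v0 * D1 * g0 + (D0 * v1 - v0 * D1) * G
    + 2 * D1 * a0 * h0

theorem LL_of_root {m1 m2 a2 l c0 c1 z u v D : A} (hD : IsUnit D) (hz : IsUnit z)
    (h0 : u * v = D ^ 2)
    (g0 : (z - m1) * u + l * m1 * a2 * (z - m2) * v = D * (z ^ 2 - c0 * z + (m1 * a2 + l * m1 * m2)))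
    (G : (z - m1) * u = l * m1 * a2 * (z - m2) * v)
    (g1 : u + l * m1 * a2 * v = D * (2 * z - c0))
    (g2 : -(l * m1 * a2 * (z - m2) * z) * v = D * (-(c1 + l * m1 * a2) * z)) :
    LL m1 m2 (m1 * a2) l c0 c1 = 0 := by
  obtain ⟨La, hLa⟩ : ∃ La, La = l * m1 * a2 := ⟨_, rfl⟩
  obtain ⟨τ, hτ⟩ : ∃ τ, τ = z ^ 2 - c0 * z + (m1 * a2 + l * m1 * m2) := ⟨_, rfl⟩
  rw [← hLa] at g0 G g1 g2
  rw [← hτ] at g0
  have k1 : τ = 2 * (c1 + La) := by
    refine (hD.mul hz).mul_left_cancel ?_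
    linear_combination (-z) * g0 + z * G - 2 * g2
  have k2 : τ * (2 * z - c0) = 2 * La * (2 * z - m1 - m2) := by
    refine (hD.pow 2).mul_left_cancel ?_
    linear_combination (-D * (2 * z - c0)) * g0 - ((z - m1) * u + La * (z - m2) * v) * g1
      + (u - La * v) * G + (2 * La * (z - m2) + 2 * La * (z - m1)) * h0
  have k3 : τ ^ 2 = 4 * La * ((z - m1) * (z - m2)) := by
    refine (hD.pow 2).mul_left_cancel ?_
    linear_combination (-(D * τ) - ((z - m1) * u + La * (z - m2) * v)) * g0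
      + ((z - m1) * u - La * (z - m2) * v) * G + 4 * La * (z - m1) * (z - m2) * h0
  obtain ⟨y, hy⟩ : ∃ y, y = 2 * z - c0 := ⟨_, rfl⟩
  have e1 : 2 * c1 * y = 2 * La * (c0 - m1 - m2) := by
    rw [hy]; linear_combination k2 - (2 * z - c0) * k1
  have e2 : 8 * La + (c0 ^ 2 - 4 * (m1 * a2 + l * m1 * m2)) = y ^ 2 - 8 * c1 := by
    rw [hy]; linear_combination 4 * hτ - 4 * k1
  have e3 : (2 * (c1 + La)) ^ 2 =
      La * (y ^ 2 + 2 * (c0 - m1 - m2) * y + ((c0 - m1 - m2) ^ 2 - (m1 - m2) ^ 2)) := by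
    rw [hy, ← k1]; linear_combination k3
  have hL : l * (m1 * a2) = La := by rw [hLa]; ring
  have e4 : 4 * La + (c0 ^ 2 - 4 * (m1 * a2 + l * m1 * m2)) = y ^ 2 - 8 * c1 - 4 * La := by
    linear_combination e2
  rw [LL, hL, e2, e4]
  generalize (c0 - m1 - m2) ^ 2 - (m1 - m2) ^ 2 = ν at *
  generalize c0 - m1 - m2 = s at *
  linear_combination (9 * (2 * c1 * y + 2 * La * s) - (24 * c1 - (y ^ 2 - 8 * c1)) * y) * e1
    + (24 * c1 - (y ^ 2 - 8 * c1)) * e3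

theorem LL_higgs {J : ℕ} {a2 l m1 m2 : A} {U1 V1 U2 V2 : (DualNumber A)[X]}
    (h : QQ (J + 2) (inl m1) (inl a2) (inl l * inl m1 * inl a2) (Qd m1 m2) U1 V1 U2 V2)
    (hl : IsNilpotent l) :
    LL m1 m2 (m1 * a2) l (cc (J + 2) (inl m1) U1 + cc (J + 2) (inl a2) U2).fst
      (cc (J + 2) (inl m1) U1 + cc (J + 2) (inl a2) U2).snd = 0 := by
  rw [Qd, mul_assoc (X - C (inl m1))] at h
  have E := h.higgs_eq (hl.map (inlHom A A))
  have hm := h.f2.mul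
  generalize cc (J + 2) (inl m1) U1 + cc (J + 2) (inl a2) U2 = c at *
  set φ : DualNumber A →+* A := (fstHom ℤ A A).toRingHom with hφ
  have φi : ∀ x, φ (inl x) = x := fun _ => rfl
  have φe : φ ε = 0 := rfl
  have h0 := h.map φ
  have E0 := congrArg (Polynomial.map φ) E
  have hm0 := h0.f2.mul
  simp only [Polynomial.map_add, Polynomial.map_mul, Polynomial.map_sub, Polynomial.map_pow,
    Polynomial.map_one, map_X, map_C, map_mul, map_add, φi, φe, map_zero, zero_mul, mul_zero,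
    sub_zero, mul_one, add_zero] at E0 hm0 h0
  set u := U2.map φ
  set v := V2.map φ
  have hd : IsUnit (m1 - a2) := h0.ud
  -- the root
  have hu : IsUnit (u.eval m1) := by
    have := congrArg (eval m1) hm0
    simp only [eval_mul, eval_pow, eval_sub, eval_X, eval_C] at this
    exact isUnit_of_mul_isUnit_left (this ▸ hd.pow _)
  obtain ⟨z, ⟨hz1, hz2⟩, -⟩ := existsUnique_nilpotent_sub_and_aeval_eq_zero (x := m1)
    (P := (X - C m1) * u - C l * (C m1 * C a2 * (X - C m2) * v))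
    (by simpa using (Commute.all _ _).isNilpotent_mul_right hl) (by
      have := (((Commute.all _ ((derivative (C m1 * C a2 * (X - C m2) * v)).eval m1)).isNilpotent_mul_right
        hl).neg).isUnit_add_left_of_commute hu (Commute.all _ _)
      rw [derivative_sub, derivative_C_mul, derivative_mul]
      simpa [sub_eq_add_neg] using this)
  have hzu : IsUnit z := by
    have := hz1.neg.isUnit_add_left_of_commute h0.u1 (Commute.all _ _)
    simpa using this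
  have hza : IsUnit (z - a2) := by
    have := hz1.neg.isUnit_add_left_of_commute hd (Commute.all _ _)
    convert this using 1; ring
  have G : (z - m1) * u.eval z = l * m1 * a2 * (z - m2) * v.eval z := by
    simp only [coe_aeval_eq_eval, eval_sub, eval_mul, eval_X, eval_C] at hz2
    linear_combination hz2
  have a0 := congrArg (eval z) hm0
  have g0 := congrArg (eval z) E0
  have a1 := congrArg (fun p => eval z (derivative p)) hm0
  have g1 := congrArg (fun p => eval z (derivative p)) E0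
  simp only [derivative_mul, derivative_add, derivative_sub, derivative_X, derivative_C,
    derivative_pow, eval_add, eval_sub, eval_mul, eval_pow, eval_X, eval_C, eval_one, eval_zero,
    eval_natCast, map_natCast] at a0 g0 a1 g1
  have hD : IsUnit ((z - a2) ^ (J + 2)) := hza.pow _
  have a0' : u.eval z * v.eval z = ((z - a2) ^ (J + 2)) ^ 2 := by rw [a0]; ring
  have g0' : (z - m1) * u.eval z + l * m1 * a2 * (z - m2) * v.eval z =
      (z - a2) ^ (J + 2) * (z ^ 2 - φ c * z + (m1 * a2 + l * m1 * m2)) := g0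
  -- derivative in `z`
  have t1 : 1 * u.eval z + l * m1 * a2 * v.eval z = (z - a2) ^ (J + 2) * (2 * z - φ c) := by
    refine tangent (u1 := (derivative u).eval z) (v1 := (derivative v).eval z)
      (D1 := (J + 2) * (z - a2) ^ (J + 1)) hD a0' ?_ g0' ?_ G
    · rw [show 2 * (J + 2) - 1 = 2 * J + 3 by omega] at a1
      push_cast at a1
      linear_combination a1
    · rw [show J + 2 - 1 = J + 1 by omega] at g1
      push_cast at g1
      linear_combination g1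
  -- derivative in `ε`
  have b0 := congrArg (fun p => snd (eval (inl z) p)) hm
  have b1 := congrArg (fun p => snd (eval (inl z) p)) E
  have fu : (U2.eval (inl z)).fst = u.eval z := by
    rw [← φi z, eval_map, eval₂_at_apply]; rfl
  have fv : (V2.eval (inl z)).fst = v.eval z := by
    rw [← φi z, eval_map, eval₂_at_apply]; rfl
  have pf : ∀ (x : A) (n : ℕ), (inl x ^ n : DualNumber A).fst = x ^ n := fun x n => by
    rw [fst_pow, fst_inl]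
  have ps : ∀ (x : A) (n : ℕ), (inl x ^ n : DualNumber A).snd = 0 := fun x n => by
    rw [snd_pow, snd_inl]; simp
  simp only [eval_add, eval_sub, eval_mul, eval_pow, eval_X, eval_C, eval_one, ← inl_sub] at b0 b1
  have φc : φ c = c.fst := rfl
  rw [φc] at g0' t1
  simp only [pf, ps, fst_mul, fst_add, fst_sub, fst_inl, fst_eps, fst_one, DualNumber.snd_mul, snd_add,
    snd_sub, snd_inl, snd_eps, snd_one, fu, fv] at b0 b1
  have t2 : 0 * u.eval z + -(l * m1 * a2 * (z - m2) * z) * v.eval z =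
      (z - a2) ^ (J + 2) * (-(c.snd + l * m1 * a2) * z) := by
    refine tangent (u1 := (U2.eval (inl z)).snd) (v1 := (V2.eval (inl z)).snd)
      (D1 := 0) hD a0' ?_ g0' ?_ G
    · linear_combination b0
    · linear_combination b1
  exact LL_of_root hD hzu a0' g0' G (by linear_combination t1) (by linear_combination t2)

end Crest.Agent.N265.Formal
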