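import Crest.Agent.N265.Formal.Iface

/-!
# Row 265, formal layer: the radical quotient (helper3)

Two functionals `Φ0`, `Φ1` obeying the point recursions factor through a solution of the
qq-equation over dual numbers.
-/

set_option autoImplicit false

open Polynomial TrivSqZeroExt DualNumber

namespace Crest.Agent.N265.Formal

universe w

/-- functoriality of dual numbers -/
def dmap {A A' : Type*} [CommRing A] [CommRing A'] (f : A →+* A') :
    DualNumber A →+* DualNumber A' where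
  toFun x := inl (f x.fst) + inr (f x.snd)
  map_one' := TrivSqZeroExt.ext (by simp) (by simp)
  map_mul' x y := TrivSqZeroExt.ext (by simp) (by simp [mul_comm])
  map_zero' := TrivSqZeroExt.ext (by simp) (by simp)
  map_add' x y := TrivSqZeroExt.ext (by simp) (by simp)

@[simp] theorem fst_dmap {A A' : Type*} [CommRing A] [CommRing A'] (f : A →+* A')
    (x : DualNumber A) : (dmap f x).fst = f x.fst := by simp [dmap]
@[simp] theorem snd_dmap {A A' : Type*} [CommRing A] [CommRing A'] (f : A →+* A')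
    (x : DualNumber A) : (dmap f x).snd = f x.snd := by simp [dmap]
theorem dmap_inl {A A' : Type*} [CommRing A] [CommRing A'] (f : A →+* A') (a : A) :
    dmap f (inl a) = inl (f a) := TrivSqZeroExt.ext (by simp) (by simp)
theorem dmap_eps {A A' : Type*} [CommRing A] [CommRing A'] (f : A →+* A') :
    dmap f ε = ε := TrivSqZeroExt.ext (by simp) (by simp)

/-- the radical of an additive functional -/
def rad {D M : Type*} [CommRing D] [AddCommGroup M] (Φ : D →+ M) : Ideal D where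
  carrier := {x | ∀ y, Φ (x * y) = 0}
  add_mem' := by intro a b ha hb y; rw [add_mul, map_add, ha, hb, add_zero]
  zero_mem' := by intro y; simp
  smul_mem' := by intro c a ha y; rw [smul_eq_mul, mul_comm c, mul_assoc]; exact ha _

variable {T : Type*} {B0 : Type w} {M : Type*} [CommRing T] [CommRing B0] [AddCommGroup M]

/-- the hypotheses of the structure theorem -/
structure Rec (J : ℕ) (ι : B0 →+* T) (a1 a2 m1 m2 l : B0) (U1 V1 U2 V2 : T[X])
    (Φ0 Φ1 : T →+ M) : Prop where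
  fac : ∀ κ, κ = Ideal.Quotient.mk (rad Φ0 ⊓ rad Φ1) →
    Fac J (κ (ι a1)) (U1.map κ) (V1.map κ) ∧ Fac J (κ (ι a2)) (U2.map κ) (V2.map κ) ∧
    IsUnit (κ (ι a1)) ∧ IsUnit (κ (ι a2)) ∧ IsUnit (κ (ι a1) - κ (ι a2))
  gen : ∀ E : Subring T, (∀ b, ι b ∈ E) → (∀ k, U1.coeff k ∈ E) → (∀ k, V1.coeff k ∈ E) →
    (∀ k, U2.coeff k ∈ E) → (∀ k, V2.coeff k ∈ E) → ∀ x, x ∈ E
  nil : ∃ k, ∀ m, Φ0 (ι l ^ k * m) = 0 ∧ Φ1 (ι l ^ k * m) = 0
  base : ∀ b, Φ0 (ι b) = 0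
  r1 : ∀ a, a = a1 ∨ a = a2 → ∀ k m, Φ1 (m * res ((X - C (ι a)) ^ J) (X ^ k * (U1 * U2 +
    C (ι l * ι a1 * ι a2) * ((X - C (ι m1)) * (X - C (ι m2))) * V1 * V2))) = 0
  r0 : ∀ a, a = a1 ∨ a = a2 → ∀ k m, Φ0 (m * res ((X - C (ι a)) ^ J) (X ^ k * (U1 * U2 +
    C (ι l * ι a1 * ι a2) * ((X - C (ι m1)) * (X - C (ι m2))) * V1 * V2))) =
    Φ1 (m * res ((X - C (ι a)) ^ J) (X ^ k *
      (C (ι l * ι a1 * ι a2) * (X * ((X - C (ι m1)) * (X - C (ι m2)))) * V1 * V2)))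

theorem nakayama {A : Type*} [CommRing A] (E : Subring A) {l : A} (hl : l ∈ E) (hn : IsNilpotent l)
    (h : ∀ x, ∃ e ∈ E, ∃ y, x = e + l * y) (x : A) : x ∈ E := by
  have key : ∀ (k : ℕ) (x : A), ∃ e ∈ E, ∃ y, x = e + l ^ k * y := by
    intro k
    induction k with
    | zero => exact fun x => ⟨0, E.zero_mem, x, by simp⟩
    | succ k ih =>
      intro x
      obtain ⟨e, he, y, rfl⟩ := ih x
      obtain ⟨e', he', y', rfl⟩ := h y
      exact ⟨e + l ^ k * e', E.add_mem he (E.mul_mem (E.pow_mem hl k) he'), y', by ring⟩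
  obtain ⟨k, hk⟩ := hn
  obtain ⟨e, he, y, rfl⟩ := key k x
  simpa [hk] using he

/-- `E + l A` -/
def subAdd {A : Type*} [CommRing A] (E : Subring A) (l : A) : Subring A where
  carrier := {x | ∃ e ∈ E, ∃ y, x = e + l * y}
  mul_mem' := by
    rintro _ _ ⟨e, he, y, rfl⟩ ⟨e', he', y', rfl⟩
    exact ⟨e * e', E.mul_mem he he', e * y' + y * e' + l * y * y', by ring⟩
  one_mem' := ⟨1, E.one_mem, 0, by simp⟩
  add_mem' := by
    rintro _ _ ⟨e, he, y, rfl⟩ ⟨e', he', y', rfl⟩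
    exact ⟨e + e', E.add_mem he he', y + y', by ring⟩
  zero_mem' := ⟨0, E.zero_mem, 0, by simp⟩
  neg_mem' := by
    rintro _ ⟨e, he, y, rfl⟩
    exact ⟨-e, E.neg_mem he, -y, by ring⟩

theorem coeff_mem_subAdd {A : Type*} [CommRing A] (E : Subring A) {l a : A} (ha : a ∈ E)
    {U : A[X]} {n : ℕ} (h : ∃ R, U = (X - C a) ^ n + C l * R) (k : ℕ) : U.coeff k ∈ subAdd E l := by
  obtain ⟨R, rfl⟩ := h
  refine ⟨((X - C a) ^ n).coeff k, ?_, R.coeff k, by simp⟩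
  rw [sub_eq_add_neg, ← map_neg, coeff_X_add_C_pow]
  exact E.mul_mem (E.pow_mem (E.neg_mem ha) _) (natCast_mem E _)

theorem Rec.struct {J : ℕ} {ι : B0 →+* T} {a1 a2 m1 m2 l : B0} {U1 V1 U2 V2 : T[X]}
    {Φ0 Φ1 : T →+ M} (h : Rec (J + 1) ι a1 a2 m1 m2 l U1 V1 U2 V2 Φ0 Φ1) :
    ∃ (S : Type w) (_ : CommRing S) (σ : B0 →+* S) (ρ : T →+* DualNumber S) (Ψ : S →+ M),
      (∀ b, ρ (ι b) = inl (σ b)) ∧ (∀ b, Ψ (σ b) = Φ1 (ι b)) ∧
      (∀ b, (∀ b', Φ1 (ι (b * b')) = 0) → σ b = 0) ∧ Function.Surjective σ ∧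
      (∀ m, Φ0 m = Ψ (ρ m).snd) ∧ (∀ m, Φ1 m = Ψ (ρ m).fst) ∧
      QQ (J + 1) (inl (σ a1)) (inl (σ a2)) (inl (σ l) * inl (σ a1) * inl (σ a2))
        (Qd (σ m1) (σ m2)) (U1.map ρ) (V1.map ρ) (U2.map ρ) (V2.map ρ) := by
  let Φ : DualNumber T →+ M :=
    { toFun := fun x => Φ0 x.fst + Φ1 x.snd
      map_zero' := by simp
      map_add' := fun x y => by simp only [fst_add, snd_add, map_add]; abel }
  have hΦ : ∀ x, Φ x = Φ0 x.fst + Φ1 x.snd := fun _ => rfl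
  let κ := Ideal.Quotient.mk (rad Φ)
  let j : T →+* DualNumber T := inlHom T T
  have hj : ∀ x, j x = inl x := fun _ => rfl
  let lam := κ.comp j
  -- the qq-equation in the radical quotient
  have hd : ∀ a, a = a1 ∨ a = a2 → (X - C (lam (ι a))) ^ (J + 1) ∣ U1.map lam * U2.map lam +
      C (lam (ι l) * lam (ι a1) * lam (ι a2)) * (Qd (ι m1) (ι m2)).map κ * V1.map lam *
      V2.map lam := by
    intro a ha
    refine dvd_of_res ((monic_X_sub_C _).pow _) fun k => ?_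
    have hD : ((X - C (ι a)) ^ (J + 1) : T[X]).Monic := (monic_X_sub_C _).pow _
    obtain ⟨F0, hF0⟩ : ∃ F0, F0 = X ^ k * (U1 * U2 + C (ι l * ι a1 * ι a2) *
      ((X - C (ι m1)) * (X - C (ι m2))) * V1 * V2) := ⟨_, rfl⟩
    obtain ⟨F1, hF1⟩ : ∃ F1, F1 = X ^ k * (C (ι l * ι a1 * ι a2) *
      (X * ((X - C (ι m1)) * (X - C (ι m2)))) * V1 * V2) := ⟨_, rfl⟩
    have e1 : X ^ k * (U1.map lam * U2.map lam + C (lam (ι l) * lam (ι a1) * lam (ι a2)) *
        (Qd (ι m1) (ι m2)).map κ * V1.map lam * V2.map lam) =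
        F0.map lam - C (κ ε) * F1.map lam := by
      have : ∀ x, κ (inl x) = lam x := fun _ => rfl
      simp only [hF0, hF1, Qd, Polynomial.map_mul, Polynomial.map_add, Polynomial.map_sub,
        Polynomial.map_pow, map_X, map_C, Polynomial.map_one, map_mul, this]
      ring
    have e2 : (X - C (lam (ι a))) ^ (J + 1) = ((X - C (ι a)) ^ (J + 1)).map lam := by simp
    rw [e1, e2, res_sub, res_C_mul, res_map lam hD, res_map lam hD]
    change κ _ - κ _ * κ _ = 0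
    rw [← map_mul, ← map_sub, Ideal.Quotient.eq_zero_iff_mem]
    intro y
    have r0 := h.r0 a ha k y.fst
    have r1 := h.r1 a ha k y.snd
    rw [← hF0] at r0 r1
    rw [← hF1] at r0
    rw [hΦ]
    simp only [hj, fst_mul, fst_sub, fst_inl, fst_eps, DualNumber.snd_mul, snd_sub, snd_inl,
      snd_eps, zero_mul, mul_zero, sub_zero, one_mul, zero_add, zero_sub, neg_mul, map_add,
      map_neg]
    rw [mul_comm _ y.fst, mul_comm _ y.fst, mul_comm _ y.snd, r0, r1]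
    abel
  have hQ : QQ (J + 1) (lam (ι a1)) (lam (ι a2)) (lam (ι l) * lam (ι a1) * lam (ι a2))
      ((Qd (ι m1) (ι m2)).map κ) (U1.map lam) (V1.map lam) (U2.map lam) (V2.map lam) := by
    obtain ⟨f1, f2, u1, u2, ud⟩ := h.fac _ rfl
    let lam' := Ideal.Quotient.lift (rad Φ0 ⊓ rad Φ1) lam (fun x hx =>
      Ideal.Quotient.eq_zero_iff_mem.2 fun y => by
        rw [hΦ]
        simp only [hj, fst_mul, fst_inl, DualNumber.snd_mul, snd_inl, zero_mul, add_zero]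
        rw [hx.1 _, hx.2 _, add_zero])
    have e : lam'.comp (Ideal.Quotient.mk _) = lam := Ideal.Quotient.lift_comp_mk _ _ _
    have f1' := f1.map lam'
    have f2' := f2.map lam'
    have ud' := ud.map lam'
    rw [Polynomial.map_map, Polynomial.map_map, e] at f1' f2'
    rw [map_sub] at ud'
    exact ⟨f1', f2', u1.map lam', u2.map lam', ud', hd a1 (Or.inl rfl), hd a2 (Or.inr rfl)⟩
  -- surjectivity from the base
  let β := κ.comp (dmap ι)
  have hβ : ∀ b, β (inl b) = lam (ι b) := fun b => congrArg κ (dmap_inl ι b)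
  have hβe : β ε = κ ε := congrArg κ (dmap_eps ι)
  have hsurj : Function.Surjective β := by
    intro x
    change x ∈ β.range
    have hm : ∀ b, lam (ι b) ∈ β.range := fun b => ⟨inl b, hβ b⟩
    refine nakayama _ (hm l) ?_ ?_ x
    · obtain ⟨k, hk⟩ := h.nil
      refine ⟨k, ?_⟩
      rw [← map_pow]
      refine Ideal.Quotient.eq_zero_iff_mem.2 fun y => ?_
      rw [hΦ]
      simp only [hj, fst_mul, fst_inl, DualNumber.snd_mul, snd_inl, zero_mul, add_zero]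
      rw [(hk _).1, (hk _).2, add_zero]
    · have hdv : lam (ι l) ∣ lam (ι l) * lam (ι a1) * lam (ι a2) := ⟨_, mul_assoc _ _ _⟩
      have o1 := hQ.ord0 _ hdv
      have o2 := hQ.swap.ord0 _ hdv
      have hT : ∀ t, lam t ∈ subAdd β.range (lam (ι l)) := by
        refine h.gen ((subAdd β.range (lam (ι l))).comap lam) (fun b => ⟨_, hm b, 0, by simp⟩)
          ?_ ?_ ?_ ?_ <;> intro k <;> rw [Subring.mem_comap, ← coeff_map]
        · exact coeff_mem_subAdd _ (hm a1) o1.1 k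
        · exact coeff_mem_subAdd _ (hm a1) o1.2 k
        · exact coeff_mem_subAdd _ (hm a2) o2.1 k
        · exact coeff_mem_subAdd _ (hm a2) o2.2 k
      intro x
      obtain ⟨x, rfl⟩ := Ideal.Quotient.mk_surjective x
      have : κ x = lam x.fst + κ ε * lam x.snd := by
        change κ _ = κ _ + κ _ * κ _
        rw [← map_mul, ← map_add]
        congr 1
        exact TrivSqZeroExt.ext (by simp [hj]) (by simp [hj])
      change κ x ∈ subAdd β.range (lam (ι l))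
      rw [this]
      exact add_mem (hT _) (mul_mem ⟨_, ⟨ε, hβe⟩, 0, by simp⟩ (hT _))
  -- the target
  let Φb : B0 →+ M := Φ1.comp ι.toAddMonoidHom
  let σ := Ideal.Quotient.mk (rad Φb)
  have hker : RingHom.ker β ≤ RingHom.ker (dmap σ) := by
    intro x hx
    have hx' : ∀ y, Φ (dmap ι x * y) = 0 := Ideal.Quotient.eq_zero_iff_mem.1 hx
    refine TrivSqZeroExt.ext ?_ ?_
    · refine Ideal.Quotient.eq_zero_iff_mem.2 fun b => ?_
      have := hx' (inr (ι b))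
      rw [hΦ] at this
      simpa [Φb, mul_comm] using this
    · refine Ideal.Quotient.eq_zero_iff_mem.2 fun b => ?_
      have := hx' (inl (ι b))
      rw [hΦ, fst_mul, fst_dmap, fst_inl, ← map_mul, h.base] at this
      simpa [DualNumber.snd_mul, Φb] using this
  let ρ' := β.liftOfSurjective hsurj ⟨dmap σ, hker⟩
  have hρ : ∀ y, ρ' (β y) = dmap σ y := fun y =>
    RingHom.liftOfRightInverse_comp_apply _ _ _ _ y
  let Ψ : (B0 ⧸ rad Φb) →+ M := QuotientAddGroup.lift (rad Φb).toAddSubgroup Φb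
    (fun b hb => by simpa using hb 1)
  have hΨ : ∀ b, Ψ (σ b) = Φ1 (ι b) := fun _ => rfl
  have key : ∀ x, Φ x = Ψ (ρ' (κ x)).snd := by
    intro x
    obtain ⟨y, hy⟩ := hsurj (κ x)
    have : Φ ((x - dmap ι y) * 1) = 0 := (Ideal.Quotient.eq.1 hy.symm) 1
    rw [mul_one, map_sub, sub_eq_zero] at this
    rw [this, ← hy, hρ, snd_dmap, hΨ, hΦ, fst_dmap, snd_dmap, h.base, zero_add]
  have hb : ∀ b, ρ' (lam (ι b)) = inl (σ b) := fun b => by rw [← hβ, hρ, dmap_inl]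
  have he : ρ' (κ ε) = ε := by rw [← hβe, hρ, dmap_eps]
  refine ⟨B0 ⧸ rad Φb, inferInstance, σ, ρ'.comp lam, Ψ, hb, hΨ,
    fun b hb => Ideal.Quotient.eq_zero_iff_mem.2 hb, Ideal.Quotient.mk_surjective,
    fun m => ?_, fun m => ?_, ?_⟩
  · have := key (inl m)
    rwa [hΦ, fst_inl, snd_inl, map_zero, add_zero] at this
  · have := key (ε * inl m)
    rw [hΦ, map_mul, map_mul, he] at this
    simpa [lam, hj] using this
  · have := hQ.map ρ'
    have e : ((Qd (ι m1) (ι m2)).map κ).map ρ' = Qd (σ m1) (σ m2) := by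
      have : ∀ x, κ (inl x) = lam x := fun _ => rfl
      simp only [Qd, Polynomial.map_mul, Polynomial.map_sub, map_X, map_C, Polynomial.map_one,
        this, hb, he]
    rw [e] at this
    simpa only [map_mul, hb, Polynomial.map_map] using this

theorem snd_pow_succ {A : Type*} [CommRing A] (c : DualNumber A) (n : ℕ) :
    (c ^ (n + 1)).snd = (n + 1) * c.fst ^ n * c.snd := by
  induction n with
  | zero => simp
  | succ n ih => rw [pow_succ, DualNumber.snd_mul, ih, fst_pow]; push_cast; ring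

theorem ins_dual {A : Type*} [CommRing A] (m1 m2 h l : A) (c : DualNumber A) :
    (Gins (inl m1) (inl m2) (inl h) (inl l) c).snd + (Fins (inl m1) (inl m2) (inl h) (inl l) c).fst
      = 15 * LL m1 m2 h l c.fst c.snd := by
  have e1 := Fins_map (fstHom ℤ A A).toRingHom (inl m1) (inl m2) (inl h) (inl l) c
  have e2 : ∀ f : A →+* DualNumber A, Gins (f m1) (f m2) (f h) (f l) c = f 6 * c ^ (4 + 1)
      + f (10 * (2 * (8 * (l * h) - 4 * (h + l * m1 * m2)) - 24 * (l * h))) * c ^ (2 + 1)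
      + f (360 * (l * h) * (m1 + m2)) * c ^ (1 + 1)
      + f (30 * ((8 * (l * h) - 4 * (h + l * m1 * m2)) ^ 2
      - 12 * (l * h) * (4 * (l * h) - 4 * (h + l * m1 * m2) + 4 * m1 * m2))) * c := by
    intro f; simp [Gins, map_ofNat]
  have e3 := e2 (inlHom A A)
  change Gins (inl m1) (inl m2) (inl h) (inl l) c = inl _ * _ + inl _ * _ + inl _ * _ + inl _ * _
    at e3
  change (Fins (inl m1) (inl m2) (inl h) (inl l) c).fst = Fins m1 m2 h l c.fst at e1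
  rw [e1, e3]
  simp only [snd_add, DualNumber.snd_mul, fst_inl, snd_inl, snd_pow_succ, Fins, LL]
  push_cast
  ring

namespace Rec

variable {J : ℕ} {ι : B0 →+* T} {a1 a2 m1 m2 l : B0} {U1 V1 U2 V2 : T[X]} {Φ0 Φ1 : T →+ M}

theorem zero (h : Rec (J + 1) ι a1 a2 m1 m2 l U1 V1 U2 V2 Φ0 0) (m : T) : Φ0 m = 0 := by
  obtain ⟨S, _, σ, ρ, Ψ, -, h2, -, h4, h5, -⟩ := h.struct
  obtain ⟨b, hb⟩ := h4 (ρ m).snd
  rw [h5, ← hb, h2]; rfl

/-- the value of the killer insertion -/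
noncomputable def val (J : ℕ) (ι : B0 →+* T) (a1 a2 m1 m2 l : B0) (U1 U2 : T[X])
    (Φ0 Φ1 : T →+ M) : M :=
  Φ0 (Gins (ι m1) (ι m2) (ι a1 * ι a2) (ι l) (cc J (ι a1) U1 + cc J (ι a2) U2)) +
  Φ1 (Fins (ι m1) (ι m2) (ι a1 * ι a2) (ι l) (cc J (ι a1) U1 + cc J (ι a2) U2))

theorem val_eq (h : Rec (J + 1) ι a1 a2 m1 m2 l U1 V1 U2 V2 Φ0 Φ1) :
    ∃ (S : Type w) (_ : CommRing S) (σ : B0 →+* S) (Ψ : S →+ M) (U1' V1' U2' V2' : (DualNumber S)[X]),
      (∀ b, Ψ (σ b) = Φ1 (ι b)) ∧ (∀ b, (∀ b', Φ1 (ι (b * b')) = 0) → σ b = 0) ∧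
      QQ (J + 1) (inl (σ a1)) (inl (σ a2)) (inl (σ l) * inl (σ a1) * inl (σ a2))
        (Qd (σ m1) (σ m2)) U1' V1' U2' V2' ∧
      val (J + 1) ι a1 a2 m1 m2 l U1 U2 Φ0 Φ1 = Ψ (15 * LL (σ m1) (σ m2) (σ a1 * σ a2) (σ l)
        (cc (J + 1) (inl (σ a1)) U1' + cc (J + 1) (inl (σ a2)) U2').fst
        (cc (J + 1) (inl (σ a1)) U1' + cc (J + 1) (inl (σ a2)) U2').snd) := by
  obtain ⟨S, _, σ, ρ, Ψ, h1, h2, h3, -, h5, h6, h7⟩ := h.struct
  refine ⟨S, inferInstance, σ, Ψ, _, _, _, _, h2, h3, h7, ?_⟩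
  rw [val, h5, h6, ← map_add, Gins_map, Fins_map, map_add ρ, ← cc_map, ← cc_map, map_mul]
  simp only [h1]
  rw [← inl_mul, ins_dual]

theorem nilp (h : Rec J ι a1 a2 m1 m2 l U1 V1 U2 V2 Φ0 Φ1) {S : Type*} [CommRing S]
    {σ : B0 →+* S} (h3 : ∀ b, (∀ b', Φ1 (ι (b * b')) = 0) → σ b = 0) : IsNilpotent (σ l) := by
  obtain ⟨k, hk⟩ := h.nil
  exact ⟨k, by rw [← map_pow]; exact h3 _ fun b' => by rw [map_mul, map_pow]; exact (hk _).2⟩

theorem higgs1 (h : Rec (J + 2) ι a1 a2 m1 m2 l U1 V1 U2 V2 Φ0 Φ1)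
    (hx : ∀ b, Φ1 (ι ((a1 - m1) * b)) = 0) : val (J + 2) ι a1 a2 m1 m2 l U1 U2 Φ0 Φ1 = 0 := by
  obtain ⟨S, _, σ, Ψ, U1', V1', U2', V2', -, h3, hQ, hv⟩ := h.val_eq
  have e : σ a1 = σ m1 := by rw [← sub_eq_zero, ← map_sub]; exact h3 _ hx
  rw [e] at hQ hv
  rw [hv, LL_higgs hQ (h.nilp h3), mul_zero, map_zero]

theorem higgs2 (h : Rec (J + 2) ι a1 a2 m1 m2 l U1 V1 U2 V2 Φ0 Φ1)
    (hx : ∀ b, Φ1 (ι ((a2 - m2) * b)) = 0) : val (J + 2) ι a1 a2 m1 m2 l U1 U2 Φ0 Φ1 = 0 := by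
  obtain ⟨S, _, σ, Ψ, U1', V1', U2', V2', -, h3, hQ, hv⟩ := h.val_eq
  have e : σ a2 = σ m2 := by rw [← sub_eq_zero, ← map_sub]; exact h3 _ hx
  rw [e] at hQ hv
  have hQ' := hQ.swap
  rw [Qd_comm, mul_right_comm] at hQ'
  rw [hv, LL_comm, mul_comm (σ a1), add_comm (cc _ _ U1'), LL_higgs hQ' (h.nilp h3), mul_zero,
    map_zero]

theorem ord2 (h : Rec (J + 3) ι a1 a2 m1 m2 l U1 V1 U2 V2 Φ0 Φ1)
    (hl : ∀ b, Φ1 (ι (l ^ 3 * b)) = 0) {d : B0}
    (hd : ∀ b, Φ1 (ι ((d * (a1 - a2) - 1) * b)) = 0) :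
    val (J + 3) ι a1 a2 m1 m2 l U1 U2 Φ0 Φ1 = Φ1 (ι (1800 * (l * (a1 * a2) * d) ^ 2 *
      ((a1 - m1) * (a1 - m2)) * ((a2 - m1) * (a2 - m2)))) := by
  obtain ⟨S, _, σ, Ψ, U1', V1', U2', V2', h2, h3, hQ, hv⟩ := h.val_eq
  have e : σ d * (σ a1 - σ a2) = 1 := by
    rw [← sub_eq_zero, ← map_sub, ← map_mul, ← map_one σ, ← map_sub]
    exact h3 _ hd
  have := LL_ord2 hQ (by rw [← map_pow]; exact h3 _ hl)
  rw [hv, ← h2]
  congr 1
  simp only [map_mul, map_pow, map_sub, map_ofNat]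
  generalize LL (σ m1) _ _ _ _ _ = Z at *
  linear_combination 15 * σ d ^ 2 * this - 15 * Z * (σ d * (σ a1 - σ a2) + 1) * e

end Rec

end Crest.Agent.N265.Formal
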