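import Crest.Agent.N265.Formal.Killer

/-!
# Row 265, formal layer, part 3: algebraic residues and the class `I|_p = A - B` (helper3)
-/

set_option autoImplicit false

open Polynomial

namespace Crest.Agent.N265.Formal

variable {R : Type*} [CommRing R]

/-- monic of formal degree `r` (also meaningful in the zero ring) -/
structure Mon (r : ℕ) (p : R[X]) : Prop where
  top : p.coeff r = 1
  hi : ∀ k, r < k → p.coeff k = 0

theorem Mon.natDegree_le {r : ℕ} {p : R[X]} (h : Mon r p) : p.natDegree ≤ r :=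
  natDegree_le_iff_coeff_eq_zero.2 h.hi

theorem Mon.monic {r : ℕ} {p : R[X]} (h : Mon r p) : p.Monic :=
  monic_of_natDegree_le_of_coeff_eq_one r h.natDegree_le h.top

theorem Mon.natDegree [Nontrivial R] {r : ℕ} {p : R[X]} (h : Mon r p) : p.natDegree = r :=
  le_antisymm h.natDegree_le (le_natDegree_of_ne_zero (by rw [h.top]; exact one_ne_zero))

theorem Mon.of_monic {r : ℕ} {p : R[X]} (hm : p.Monic) (hd : p.natDegree = r) : Mon r p :=
  ⟨by rw [← hd]; exact hm.coeff_natDegree, fun _ hk => coeff_eq_zero_of_natDegree_lt (hd ▸ hk)⟩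

theorem Mon.of_subsingleton [Subsingleton R] (r : ℕ) (p : R[X]) : Mon r p :=
  ⟨Subsingleton.elim _ _, fun _ _ => Subsingleton.elim _ _⟩

theorem Mon.map {R' : Type*} [CommRing R'] (f : R →+* R') {r : ℕ} {p : R[X]} (h : Mon r p) :
    Mon r (p.map f) :=
  ⟨by rw [coeff_map, h.top, map_one], fun k hk => by rw [coeff_map, h.hi k hk, map_zero]⟩

theorem Mon.mul {r s : ℕ} {p q : R[X]} (hp : Mon r p) (hq : Mon s q) : Mon (r + s) (p * q) := by
  rcases subsingleton_or_nontrivial R with _ | _
  · exact Mon.of_subsingleton _ _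
  exact Mon.of_monic (hp.monic.mul hq.monic)
    (by rw [hp.monic.natDegree_mul hq.monic, hp.natDegree, hq.natDegree])

theorem Mon.one : Mon 0 (1 : R[X]) :=
  ⟨by simp, fun k hk => by rw [coeff_one, if_neg (by omega)]⟩

theorem Mon.X_sub_C (a : R) : Mon 1 (X - C a) :=
  ⟨by simp, fun k hk => coeff_eq_zero_of_natDegree_lt ((natDegree_X_sub_C_le a).trans_lt hk)⟩

theorem Mon.pow (a : R) (n : ℕ) : Mon n ((X - C a) ^ n) := by
  induction n with
  | zero => simpa using Mon.one
  | succ n ih => rw [pow_succ]; exact ih.mul (Mon.X_sub_C a)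

/-- sum of the residues of `p / D` -/
noncomputable def res (D p : R[X]) : R := (p %ₘ D).coeff (D.natDegree - 1)

theorem res_add (D p q : R[X]) : res D (p + q) = res D p + res D q := by
  rw [res, add_modByMonic, coeff_add]; rfl

theorem res_C_mul (D : R[X]) (c : R) (p : R[X]) : res D (C c * p) = c * res D p := by
  rw [res, ← smul_eq_C_mul, smul_modByMonic, coeff_smul]; rfl

theorem res_neg (D p : R[X]) : res D (-p) = -res D p := by
  have := res_C_mul D (-1) p
  simpa using this

theorem res_sub (D p q : R[X]) : res D (p - q) = res D p - res D q := by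
  rw [sub_eq_add_neg, res_add, res_neg, sub_eq_add_neg]

theorem res_of_dvd {D p : R[X]} (hD : D.Monic) (h : D ∣ p) : res D p = 0 := by
  rw [res, (modByMonic_eq_zero_iff_dvd hD).2 h, coeff_zero]

theorem res_congr {D p q : R[X]} (hD : D.Monic) (h : D ∣ p - q) : res D p = res D q := by
  rw [← sub_eq_zero, ← res_sub, res_of_dvd hD h]

theorem res_map {R' : Type*} [CommRing R'] (f : R →+* R') {D : R[X]} (hD : D.Monic) (p : R[X]) :
    res (D.map f) (p.map f) = f (res D p) := by
  nontriviality R'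
  rw [res, res, ← map_modByMonic f hD, coeff_map, hD.natDegree_map]

theorem res_mul_cancel {D c : R[X]} (hD : D.Monic) (hc : c.Monic) (p : R[X]) :
    res (D * c) (p * c) = res D p := by
  nontriviality R
  have h1 : (p * c) %ₘ (D * c) = (p %ₘ D) * c := by
    refine (div_modByMonic_unique (p /ₘ D) _ (hD.mul hc) ⟨?_, ?_⟩).2
    · conv_rhs => rw [← modByMonic_add_div p D]
      ring
    · by_cases h0 : p %ₘ D = 0
      · rw [h0, zero_mul, degree_zero]
        exact bot_lt_iff_ne_bot.2 (by simpa using (hD.mul hc).ne_zero)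
      rw [hc.degree_mul, hc.degree_mul]
      exact WithBot.add_lt_add_right (by simpa using hc.ne_zero) (degree_modByMonic_lt p hD)
  rw [res, res, h1, hD.natDegree_mul hc]
  by_cases h0 : D.natDegree = 0
  · rw [hD.natDegree_eq_zero] at h0
    subst h0
    simp
  have hlt : (p %ₘ D).natDegree ≤ D.natDegree - 1 := by
    by_cases h2 : p %ₘ D = 0
    · rw [h2]; simp
    · have := natDegree_lt_natDegree h2 (degree_modByMonic_lt p hD)
      omega
  rw [show D.natDegree + c.natDegree - 1 = D.natDegree - 1 + c.natDegree by omega,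
    coeff_mul_add_eq_of_natDegree_le hlt le_rfl, hc.coeff_natDegree, mul_one]

theorem res_of_lt {D p : R[X]} (hD : D.Monic) (h : p.degree < D.degree) :
    res D p = p.coeff (D.natDegree - 1) := by
  nontriviality R
  rw [res, (modByMonic_eq_self_iff hD).2 h]

/-- the residue pairing is perfect -/
theorem dvd_of_res {D p : R[X]} (hD : D.Monic) (h : ∀ k, res D (X ^ k * p) = 0) : D ∣ p := by
  nontriviality R
  rw [← modByMonic_eq_zero_iff_dvd hD]
  by_contra h0
  have hlt := natDegree_lt_natDegree h0 (degree_modByMonic_lt p hD)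
  have h1 := h (D.natDegree - 1 - (p %ₘ D).natDegree)
  rw [res_congr hD (q := X ^ (D.natDegree - 1 - (p %ₘ D).natDegree) * (p %ₘ D))
    ⟨X ^ (D.natDegree - 1 - (p %ₘ D).natDegree) * (p /ₘ D), by
      conv_lhs => rw [← modByMonic_add_div p D]
      rw [modByMonic_add_div p D]
      linear_combination (-X ^ (D.natDegree - 1 - (p %ₘ D).natDegree)) * modByMonic_add_div p D⟩,
    res_of_lt hD] at h1
  · rw [coeff_X_pow_mul', if_pos (by omega),
      show D.natDegree - 1 - (D.natDegree - 1 - (p %ₘ D).natDegree) = (p %ₘ D).natDegree by omega]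
      at h1
    exact h0 (leadingCoeff_eq_zero.1 h1)
  · refine degree_lt_degree ?_
    rw [(monic_X_pow _).natDegree_mul' h0, natDegree_X_pow]
    omega

/-- characterisation of the residue functional (projective bundle formula) -/
theorem res_unique {M : Type*} [AddCommGroup M] {r : ℕ} {D : R[X]} (hD : Mon (r + 1) D)
    (F : R[X] →+ M) (L : R →+ M) (h0 : ∀ g, F (D * g) = 0)
    (h1 : ∀ c j, j < r → F (C c * X ^ j) = 0) (h2 : ∀ c, F (C c * X ^ r) = L c) (g : R[X]) :
    F g = L (res D g) := by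
  rcases subsingleton_or_nontrivial R with _ | _
  · rw [Subsingleton.elim g 0, Subsingleton.elim (res D 0) 0, map_zero, map_zero]
  have hlt : (g %ₘ D).natDegree < r + 1 := by
    by_cases h2 : g %ₘ D = 0
    · rw [h2]; simp
    · have := natDegree_lt_natDegree h2 (degree_modByMonic_lt g hD.monic)
      rwa [hD.natDegree] at this
  conv_lhs => rw [← modByMonic_add_div g D, map_add, h0, add_zero, (g %ₘ D).as_sum_range_C_mul_X_pow' hlt,
    Finset.sum_range_succ, map_add, map_sum, h2]
  rw [Finset.sum_eq_zero (fun j hj => h1 _ j (Finset.mem_range.1 hj)), zero_add, res, hD.natDegree]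
  rfl

/-- `pA`, `pB` are the characteristic polynomials of `A`, `B` in `I|_p = A - B`, `a = det I|_p` -/
structure Cls (J : ℕ) (a : R) (pA pB : R[X]) : Prop where
  deg : ∃ r, Mon (r + 1) pA ∧ Mon r pB
  dA : pA ∣ (X - C a) ^ J
  dB : pB ∣ (X - C a) ^ J
  ev0 : pA.eval 0 = -a * pB.eval 0

/-- the class `A - B` itself -/
noncomputable def tr (pA pB : R[X]) : R := pB.nextCoeff - pA.nextCoeff

/-- `Y = UU / (X - a)^J` -/
noncomputable def UU (J : ℕ) (a : R) (pA pB : R[X]) : R[X] := pA * ((X - C a) ^ J /ₘ pB)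

theorem mul_div_of_dvd {D p : R[X]} (hD : D.Monic) (h : D ∣ p) : D * (p /ₘ D) = p := by
  have := modByMonic_add_div p D
  rwa [(modByMonic_eq_zero_iff_dvd hD).2 h, zero_add] at this

namespace Cls

variable {J : ℕ} {a : R} {pA pB : R[X]}

theorem mA (h : Cls J a pA pB) : pA.Monic := by obtain ⟨r, h1, _⟩ := h.deg; exact h1.monic
theorem mB (h : Cls J a pA pB) : pB.Monic := by obtain ⟨r, _, h1⟩ := h.deg; exact h1.monic

theorem mono (h : Cls J a pA pB) {J' : ℕ} (hJ : J ≤ J') : Cls J' a pA pB :=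
  ⟨h.deg, h.dA.trans (pow_dvd_pow _ hJ), h.dB.trans (pow_dvd_pow _ hJ), h.ev0⟩

theorem eA (h : Cls J a pA pB) : pA * ((X - C a) ^ J /ₘ pA) = (X - C a) ^ J :=
  mul_div_of_dvd h.mA h.dA
theorem eB (h : Cls J a pA pB) : pB * ((X - C a) ^ J /ₘ pB) = (X - C a) ^ J :=
  mul_div_of_dvd h.mB h.dB
theorem mcA (h : Cls J a pA pB) : ((X - C a) ^ J /ₘ pA).Monic :=
  h.mA.of_mul_monic_left (by rw [h.eA]; exact (monic_X_sub_C a).pow _)
theorem mcB (h : Cls J a pA pB) : ((X - C a) ^ J /ₘ pB).Monic :=
  h.mB.of_mul_monic_left (by rw [h.eB]; exact (monic_X_sub_C a).pow _)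

theorem U_mul (h : Cls J a pA pB) : UU J a pA pB * pB = pA * (X - C a) ^ J := by
  rw [UU]; linear_combination pA * h.eB
theorem V_mul (h : Cls J a pA pB) : UU J a pB pA * pA = pB * (X - C a) ^ J := by
  rw [UU]; linear_combination pB * h.eA

theorem fac (h : Cls J a pA pB) : Fac J a (UU J a pA pB) (UU J a pB pA) where
  lead := by
    rcases subsingleton_or_nontrivial R with _ | _
    · exact ⟨Subsingleton.elim _ _, fun _ _ => Subsingleton.elim _ _⟩
    obtain ⟨r, h1, h2⟩ := h.deg
    have hm : (UU J a pA pB).Monic := h.mA.mul h.mcB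
    refine Lead.of_monic hm ?_
    have := congrArg natDegree h.U_mul
    rw [hm.natDegree_mul h.mB, h.mA.natDegree_mul (Mon.pow a J).monic, h1.natDegree, h2.natDegree,
      (Mon.pow a J).natDegree] at this
    omega
  mul := by
    rw [UU, UU, two_mul, pow_add]
    linear_combination (pA * ((X - C a) ^ J /ₘ pA)) * h.eB + (X - C a) ^ J * h.eA
  ev0 := by
    have := congrArg (eval 0) h.eB
    simp only [eval_mul, eval_pow, eval_sub, eval_X, eval_C, zero_sub] at this
    rw [UU, eval_mul, h.ev0, pow_succ, ← this]; ring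

theorem cc_eq (h : Cls J a pA pB) : cc J a (UU J a pA pB) = tr pA pB := by
  nontriviality R
  have hm : (UU J a pA pB).Monic := h.mA.mul h.mcB
  have h1 := congrArg nextCoeff h.U_mul
  rw [hm.nextCoeff_mul h.mB, h.mA.nextCoeff_mul (Mon.pow a J).monic,
    (monic_X_sub_C a).nextCoeff_pow, nextCoeff_X_sub_C] at h1
  have hd : (UU J a pA pB).natDegree = J + 1 :=
    (⟨h.fac.lead.top, h.fac.lead.hi⟩ : Mon (J + 1) _).natDegree
  rw [nextCoeff_of_natDegree_pos (by omega), hd, Nat.add_sub_cancel] at h1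
  rw [cc, tr]
  simp only [smul_neg, nsmul_eq_mul] at h1
  linear_combination -h1

theorem resU (h : Cls J a pA pB) (g : R[X]) :
    res ((X - C a) ^ J) (g * UU J a pA pB) = res pB (g * pA) := by
  conv_lhs => rw [UU, ← mul_assoc]; congr; rw [← h.eB]
  exact res_mul_cancel h.mB h.mcB _

theorem resV (h : Cls J a pA pB) (g : R[X]) :
    res ((X - C a) ^ J) (g * UU J a pB pA) = res pA (g * pB) := by
  conv_lhs => rw [UU, ← mul_assoc]; congr; rw [← h.eA]
  exact res_mul_cancel h.mA h.mcA _

theorem U_bot (h : Cls J a pA pB) (h0 : pA = (X - C a) * pB) :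
    (X - C a) ^ J ∣ UU J a pA pB :=
  ⟨X - C a, by rw [UU, h0]; linear_combination (X - C a) * h.eB⟩

end Cls

/-- compatibility of `UU` on a nested space -/
theorem UU_compat {R' N : Type*} [CommRing R'] [CommRing N] (f : R →+* N) (f' : R' →+* N) {J : ℕ}
    {a : R} {pA pB : R[X]} {a' : R'} {pA' pB' : R'[X]} (h : Cls J a pA pB) (h' : Cls J a' pA' pB')
    (ha : f a = f' a') (hp : pA.map f * pB'.map f' = pA'.map f' * pB.map f) :
    (UU J a pA pB).map f = (UU J a' pA' pB').map f' ∧
      (UU J a pB pA).map f = (UU J a' pB' pA').map f' := by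
  have e1 := congrArg (Polynomial.map f) h.U_mul
  have e2 := congrArg (Polynomial.map f') h'.U_mul
  simp only [Polynomial.map_mul, Polynomial.map_pow, Polynomial.map_sub, map_X, map_C] at e1 e2
  rw [← ha] at e2
  have hU : (UU J a pA pB).map f = (UU J a' pA' pB').map f' := by
    refine ((h.mB.map f).mul (h'.mB.map f')).isRegular.left ?_
    simp only
    linear_combination (pB'.map f') * e1 - (pB.map f) * e2 + (X - C (f a)) ^ J * hp
  refine ⟨hU, (h.fac.map f).uniqV ?_⟩
  rw [hU, ha]
  exact (h'.fac.map f').mul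

end Crest.Agent.N265.Formal
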